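import Mathlib.MeasureTheory.Constructions.UnitInterval
import Mathlib.MeasureTheory.Function.JacobianOneDim
import Mathlib.Analysis.SpecialFunctions.Log.Deriv
import Mathlib.Analysis.SpecialFunctions.Sqrt
import Mathlib.MeasureTheory.Function.SpecialFunctions.Basic

/-!
# A bounded observation channel with Lipschitz quantile increments
-/

namespace Vale.Agent.P143

open MeasureTheory Set
open scoped ENNReal unitInterval

/-- Observation density when the edge is present. -/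
noncomputable def f1 (v : ℝ) : ℝ := 1 + (2 * v - 1) / 4

/-- Observation density when the edge is absent. -/
noncomputable def f0 (v : ℝ) : ℝ := 1 - (2 * v - 1) / 4

/-- Log likelihood ratio. -/
noncomputable def ell (v : ℝ) : ℝ := Real.log (f1 v) - Real.log (f0 v)

/-- Predictive density. -/
noncomputable def mixd (p v : ℝ) : ℝ := p * f1 v + (1 - p) * f0 v

/-- Predictive distribution function. -/
noncomputable def mixF (p v : ℝ) : ℝ := v + (2 * p - 1) / 4 * (v ^ 2 - v)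

/-- Inverse of the predictive distribution function. -/
noncomputable def vq (u p : ℝ) : ℝ :=
  2 * u / (1 - (2 * p - 1) / 4 +
    Real.sqrt ((1 - (2 * p - 1) / 4) ^ 2 + 4 * ((2 * p - 1) / 4) * u))

/-- Tilt increment from a uniform variable `u` and current marginal `p`. -/
noncomputable def inc (u p : ℝ) : ℝ := ell (vq u p)

lemma measurable_f1 : Measurable f1 := by unfold f1; fun_prop

lemma measurable_f0 : Measurable f0 := by unfold f0; fun_prop

lemma measurable_ell : Measurable ell :=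
  (Real.measurable_log.comp measurable_f1).sub (Real.measurable_log.comp measurable_f0)

lemma measurable_inc : Measurable (Function.uncurry inc) := by
  refine measurable_ell.comp ?_
  unfold vq
  fun_prop

lemma f1_bounds {v : ℝ} (hv : v ∈ Icc (0 : ℝ) 1) : 3 / 4 ≤ f1 v ∧ f1 v ≤ 5 / 4 := by
  obtain ⟨h1, h2⟩ := hv
  unfold f1
  constructor <;> linarith

lemma f0_bounds {v : ℝ} (hv : v ∈ Icc (0 : ℝ) 1) : 3 / 4 ≤ f0 v ∧ f0 v ≤ 5 / 4 := by
  obtain ⟨h1, h2⟩ := hv
  unfold f0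
  constructor <;> linarith

lemma log_diff_le {x y : ℝ} (hx : 3 / 4 ≤ x) (hy : 3 / 4 ≤ y) :
    |Real.log x - Real.log y| ≤ 4 / 3 * |x - y| := by
  have key : ∀ a b : ℝ, 3 / 4 ≤ a → 3 / 4 ≤ b → Real.log a - Real.log b ≤ 4 / 3 * |a - b| := by
    intro a b ha hb
    have hb0 : 0 < b := by linarith
    rw [← Real.log_div (by linarith) hb0.ne']
    refine (Real.log_le_sub_one_of_pos (by positivity)).trans ?_
    rw [div_sub_one hb0.ne', div_le_iff₀ hb0]
    nlinarith [le_abs_self (a - b), abs_nonneg (a - b)]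
  rw [abs_le]
  refine ⟨?_, key x y hx hy⟩
  have := key y x hy hx
  rw [abs_sub_comm] at this
  linarith

lemma ell_lip {v w : ℝ} (hv : v ∈ Icc (0 : ℝ) 1) (hw : w ∈ Icc (0 : ℝ) 1) :
    |ell v - ell w| ≤ 4 / 3 * |v - w| := by
  have h1 := log_diff_le (f1_bounds hv).1 (f1_bounds hw).1
  have h0 := log_diff_le (f0_bounds hv).1 (f0_bounds hw).1
  have e1 : |f1 v - f1 w| = |v - w| / 2 := by
    rw [show f1 v - f1 w = (v - w) / 2 by unfold f1; ring, abs_div]; norm_num
  have e0 : |f0 v - f0 w| = |v - w| / 2 := by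
    rw [show f0 v - f0 w = -(v - w) / 2 by unfold f0; ring, abs_div, abs_neg]; norm_num
  rw [e1] at h1
  rw [e0] at h0
  have := abs_sub (Real.log (f1 v) - Real.log (f1 w)) (Real.log (f0 v) - Real.log (f0 w))
  unfold ell
  rw [show Real.log (f1 v) - Real.log (f0 v) - (Real.log (f1 w) - Real.log (f0 w)) =
    (Real.log (f1 v) - Real.log (f1 w)) - (Real.log (f0 v) - Real.log (f0 w)) by ring]
  linarith

lemma vq_spec {u p : ℝ} (hu : u ∈ Icc (0 : ℝ) 1) (hp : p ∈ Icc (0 : ℝ) 1) :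
    vq u p ∈ Icc (0 : ℝ) 1 ∧ mixF p (vq u p) = u := by
  obtain ⟨u0, u1⟩ := hu
  obtain ⟨p0, p1⟩ := hp
  set b := (2 * p - 1) / 4 with hb
  have hb1 : b ≤ 1 / 4 := by rw [hb]; linarith
  have hb0 : -(1 / 4) ≤ b := by rw [hb]; linarith
  set D := (1 - b) ^ 2 + 4 * b * u with hD
  have hD0 : 0 ≤ D := by
    rcases le_or_gt 0 b with h | h <;> rw [hD] <;> nlinarith
  set s := Real.sqrt D with hs
  have hs0 : 0 ≤ s := Real.sqrt_nonneg _
  have hss : s * s = D := Real.mul_self_sqrt hD0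
  have hden : 0 < 1 - b + s := by linarith
  have hv : vq u p = 2 * u / (1 - b + s) := rfl
  refine ⟨⟨?_, ?_⟩, ?_⟩
  · rw [hv]; exact div_nonneg (by linarith) hden.le
  · rw [hv, div_le_one hden]
    by_contra hc
    rw [not_le] at hc
    have h1 : 2 * u - 1 + b > s := by linarith
    have h2 : s * s < (2 * u - 1 + b) * (2 * u - 1 + b) := mul_self_lt_mul_self hs0 h1
    rw [hss, hD] at h2
    nlinarith
  · rw [hv, mixF, ← hb]
    field_simp
    rw [hD] at hss
    linear_combination (-u) * hss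

lemma mixF_sub {p q v w : ℝ} :
    mixF p v - mixF q w =
      (v - w) * (1 + (2 * p - 1) / 4 * (v + w - 1)) + (p - q) / 2 * (w ^ 2 - w) := by
  unfold mixF; ring

lemma mixF_slope {p v w : ℝ} (hp : p ∈ Icc (0 : ℝ) 1) (hv : v ∈ Icc (0 : ℝ) 1)
    (hw : w ∈ Icc (0 : ℝ) 1) : 3 / 4 ≤ 1 + (2 * p - 1) / 4 * (v + w - 1) := by
  obtain ⟨p0, p1⟩ := hp
  obtain ⟨v0, v1⟩ := hv
  obtain ⟨w0, w1⟩ := hw
  nlinarith

lemma vq_mixF {p v : ℝ} (hp : p ∈ Icc (0 : ℝ) 1) (hv : v ∈ Icc (0 : ℝ) 1)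
    (hu : mixF p v ∈ Icc (0 : ℝ) 1) : vq (mixF p v) p = v := by
  obtain ⟨h1, h2⟩ := vq_spec hu hp
  have h3 : mixF p (vq (mixF p v) p) - mixF p v = 0 := by rw [h2, sub_self]
  rw [mixF_sub, sub_self, zero_div, zero_mul, add_zero, mul_eq_zero] at h3
  rcases h3 with h3 | h3
  · linarith
  · linarith [mixF_slope hp h1 hv]

lemma vq_lip {u p q : ℝ} (hu : u ∈ Icc (0 : ℝ) 1) (hp : p ∈ Icc (0 : ℝ) 1)
    (hq : q ∈ Icc (0 : ℝ) 1) : |vq u p - vq u q| ≤ |p - q| / 6 := by
  obtain ⟨hv, hv'⟩ := vq_spec hu hp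
  obtain ⟨hw, hw'⟩ := vq_spec hu hq
  set v := vq u p
  set w := vq u q
  have h : mixF p v - mixF q w = 0 := by rw [hv', hw', sub_self]
  rw [mixF_sub] at h
  have hs := mixF_slope hp hv hw
  have h2 : |v - w| * (1 + (2 * p - 1) / 4 * (v + w - 1)) = |p - q| / 2 * (w - w ^ 2) := by
    have : (v - w) * (1 + (2 * p - 1) / 4 * (v + w - 1)) = (p - q) / 2 * (w - w ^ 2) := by linarith
    have h' := congrArg abs this
    rw [abs_mul, abs_mul, abs_of_nonneg (a := 1 + (2 * p - 1) / 4 * (v + w - 1)) (by linarith),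
      abs_of_nonneg (a := w - w ^ 2) (by obtain ⟨a, b⟩ := hw; nlinarith), abs_div,
      abs_two] at h'
    exact h'
  have h3 : w - w ^ 2 ≤ 1 / 4 := by nlinarith [sq_nonneg (w - 1 / 2)]
  nlinarith [abs_nonneg (v - w), abs_nonneg (p - q)]

lemma inc_lip {u p q : ℝ} (hu : u ∈ Icc (0 : ℝ) 1) (hp : p ∈ Icc (0 : ℝ) 1)
    (hq : q ∈ Icc (0 : ℝ) 1) : |inc u p - inc u q| ≤ 2 / 9 * |p - q| := by
  refine (ell_lip (vq_spec hu hp).1 (vq_spec hu hq).1).trans ?_
  linarith [vq_lip hu hp hq]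

lemma ell_abs_lt {v : ℝ} (hv : v ∈ Icc (0 : ℝ) 1) : |ell v| < 1 := by
  have h := log_diff_le (f1_bounds hv).1 (f0_bounds hv).1
  have : |f1 v - f0 v| ≤ 1 / 2 := by
    obtain ⟨a, b⟩ := hv
    rw [abs_le]
    unfold f1 f0
    constructor <;> linarith
  unfold ell
  linarith

lemma inc_abs_lt {u p : ℝ} (hu : u ∈ Icc (0 : ℝ) 1) (hp : p ∈ Icc (0 : ℝ) 1) :
    |inc u p| < 1 :=
  ell_abs_lt (vq_spec hu hp).1

lemma exp_ell {v : ℝ} (hv : v ∈ Icc (0 : ℝ) 1) : Real.exp (ell v) = f1 v / f0 v := by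
  rw [ell, Real.exp_sub, Real.exp_log (by linarith [(f1_bounds hv).1]),
    Real.exp_log (by linarith [(f0_bounds hv).1])]

lemma mixd_nonneg {p v : ℝ} (hp : p ∈ Icc (0 : ℝ) 1) (hv : v ∈ Icc (0 : ℝ) 1) :
    0 ≤ mixd p v :=
  add_nonneg (mul_nonneg hp.1 (by linarith [(f1_bounds hv).1]))
    (mul_nonneg (by linarith [hp.2]) (by linarith [(f0_bounds hv).1]))

/-- The law of the increment is the predictive law. -/
lemma lintegral_inc {p : ℝ} (hp : p ∈ Icc (0 : ℝ) 1) (g : ℝ → ℝ≥0∞) :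
    ∫⁻ u : I, g (inc u p) = ∫⁻ v : I, ENNReal.ofReal (mixd p v) * g (ell v) := by
  have hI : ∀ h : ℝ → ℝ≥0∞, ∫⁻ u : I, h u = ∫⁻ u in Icc (0 : ℝ) 1, h u := fun h =>
    unitInterval.measurePreserving_coe.lintegral_comp_emb unitInterval.measurableEmbedding_coe h
  rw [hI (fun u => g (inc u p)), hI (fun v => ENNReal.ofReal (mixd p v) * g (ell v))]
  have hderiv : ∀ x ∈ Icc (0 : ℝ) 1, HasDerivWithinAt (mixF p) (mixd p x) (Icc 0 1) x := by
    intro x _
    have h := (hasDerivAt_id' x).add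
        (((hasDerivAt_pow 2 x).sub (hasDerivAt_id' x)).const_mul ((2 * p - 1) / 4))
    have h' : mixd p x = 1 + (2 * p - 1) / 4 * ((2 : ℕ) * x ^ (2 - 1) - 1) := by
      unfold mixd f1 f0; push_cast; ring
    rw [h']
    exact h.hasDerivWithinAt
  have hmono : MonotoneOn (mixF p) (Icc 0 1) := by
    intro v hv w hw hvw
    have h := mixF_sub (p := p) (q := p) (v := w) (w := v)
    rw [sub_self, zero_div, zero_mul, add_zero] at h
    nlinarith [mixF_slope hp hw hv]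
  have himage : mixF p '' Icc 0 1 = Icc (0 : ℝ) 1 := by
    ext u
    constructor
    · rintro ⟨v, hv, rfl⟩
      have h0 : mixF p 0 = 0 := by simp [mixF]
      have h1 : mixF p 1 = 1 := by simp [mixF]
      exact ⟨h0 ▸ hmono (by simp) hv hv.1, h1 ▸ hmono hv (by simp) hv.2⟩
    · exact fun hu => ⟨vq u p, vq_spec hu hp⟩
  have key := lintegral_image_eq_lintegral_deriv_mul_of_monotoneOn measurableSet_Icc hderiv hmono
    (fun u => g (inc u p))
  rw [himage] at key
  rw [key]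
  refine setLIntegral_congr_fun measurableSet_Icc fun v hv => ?_
  have hu : mixF p v ∈ Icc (0 : ℝ) 1 := himage ▸ ⟨v, hv, rfl⟩
  simp only [inc, vq_mixF hp hv hu]

/-- The Bhattacharyya coefficient of the channel. -/
noncomputable def beta : ℝ≥0∞ :=
  ∫⁻ v : I, ENNReal.ofReal (Real.sqrt (f1 v * f0 v))

lemma beta_lt_one : beta < 1 := by
  have hb : ∀ v : I, Real.sqrt (f1 v * f0 v) ≤ 1 := by
    intro v
    rw [Real.sqrt_le_one]
    unfold f1 f0
    nlinarith [sq_nonneg (2 * (v : ℝ) - 1)]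
  have hb' : ∀ v : I, (v : ℝ) ≤ 1 / 4 → Real.sqrt (f1 v * f0 v) ≤ 127 / 128 + 1 / 1024 := by
    intro v hv
    rw [Real.sqrt_le_iff]
    refine ⟨by norm_num, ?_⟩
    unfold f1 f0
    nlinarith [v.2.1]
  let q : I := ⟨1 / 4, by norm_num, by norm_num⟩
  calc beta ≤ ∫⁻ v in Iic q ∪ Ioi q, ENNReal.ofReal (Real.sqrt (f1 v * f0 v)) := by
        rw [Iic_union_Ioi, setLIntegral_univ]; exact le_rfl
    _ = (∫⁻ v in Iic q, ENNReal.ofReal (Real.sqrt (f1 v * f0 v))) +
        ∫⁻ v in Ioi q, ENNReal.ofReal (Real.sqrt (f1 v * f0 v)) :=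
      lintegral_union measurableSet_Ioi (Set.disjoint_left.mpr fun x h1 h2 =>
        (not_lt.mpr (mem_Iic.mp h1)) (mem_Ioi.mp h2))
    _ ≤ (∫⁻ _ in Iic q, ENNReal.ofReal (127 / 128 + 1 / 1024)) +
        ∫⁻ _ in Ioi q, ENNReal.ofReal 1 := by
      refine add_le_add (setLIntegral_mono measurable_const fun v hv =>
          ENNReal.ofReal_le_ofReal (hb' v ?_))
        (setLIntegral_mono measurable_const fun v _ => ENNReal.ofReal_le_ofReal (hb v))
      have hvq : v ≤ q := hv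
      exact Subtype.coe_le_coe.mpr hvq
    _ = ENNReal.ofReal ((127 / 128 + 1 / 1024) * (1 / 4) + (1 - 1 / 4)) := by
      rw [setLIntegral_const, setLIntegral_const, unitInterval.volume_Iic, unitInterval.volume_Ioi,
        ← ENNReal.ofReal_mul (by norm_num), ← ENNReal.ofReal_mul (by norm_num),
        ← ENNReal.ofReal_add (by norm_num [q]) (by norm_num [q]), one_mul]
    _ < 1 := by
      rw [ENNReal.ofReal_lt_one]; norm_num

end Vale.Agent.P143
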