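import Mathlib.Combinatorics.SimpleGraph.Acyclic
import Mathlib.MeasureTheory.Constructions.UnitInterval
import Mathlib.Probability.ProductMeasure

/-!
# Free uniform spanning forests: definitions
-/

namespace Vale.Agent.P143

open Filter Topology MeasureTheory unitInterval

variable {V : Type*} {G : SimpleGraph V}

/-- `K` is an exhaustion of `G`: increasing finite connected subgraphs with union `G`. -/
structure IsExhaustion (G : SimpleGraph V) (K : ℕ → G.Subgraph) : Prop where
  finite : ∀ n, (K n).verts.Finite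
  connected : ∀ n, (K n).Connected
  mono : Monotone K
  verts_cover : ∀ v, ∃ n, v ∈ (K n).verts
  edges_cover : ∀ e ∈ G.edgeSet, ∃ n, e ∈ (K n).edgeSet

/-- `T` is (the edge set of) a spanning tree of the subgraph `K`. -/
def IsSpanningTree (K : G.Subgraph) (T : Finset (Sym2 V)) : Prop :=
  (↑T : Set (Sym2 V)) ⊆ K.edgeSet ∧ (SimpleGraph.fromEdgeSet (↑T : Set (Sym2 V))).IsAcyclic ∧
    ∀ a ∈ K.verts, ∀ b ∈ K.verts, (SimpleGraph.fromEdgeSet (↑T : Set (Sym2 V))).Reachable a b

/-- Probability that the uniform spanning tree `T` of the finite subgraph `K` satisfies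
`∀ e ∈ F, e ∈ T ↔ e ∈ S`. -/
noncomputable def ustProb (K : G.Subgraph) (F S : Finset (Sym2 V)) : ℝ :=
  (Nat.card {T : Finset (Sym2 V) // IsSpanningTree K T ∧ ∀ e ∈ F, (e ∈ T ↔ e ∈ S)} : ℝ) /
    (Nat.card {T : Finset (Sym2 V) // IsSpanningTree K T} : ℝ)

/-- The random edge set `e ↦ X U e`, with `U` i.i.d. uniform on the vertices, has as its law the
free uniform spanning forest of `G`: it consists of edges of `G`, and its finite cylinder
probabilities are the limits of those of the uniform spanning trees along every exhaustion. -/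
def HasFUSFLaw (G : SimpleGraph V) (X : (V → I) → Sym2 V → Prop) : Prop :=
  (∀ U e, X U e → e ∈ G.edgeSet) ∧ (∃ K, IsExhaustion G K) ∧
    ∀ K, IsExhaustion G K → ∀ F S : Finset (Sym2 V), (↑F : Set (Sym2 V)) ⊆ G.edgeSet →
      Tendsto (fun n => ustProb (K n) F S) atTop
        (𝓝 ((Measure.infinitePi fun _ : V => (volume : Measure I)).real
          {U | ∀ e ∈ F, (X U e ↔ e ∈ S)}))

end Vale.Agent.P143
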