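import Vale.Agent.P143.Sampler
import Mathlib.Probability.ProductMeasure
import Mathlib.MeasureTheory.Measure.Prod
import Mathlib.Data.Prod.Lex

/-!
# Exactness of the sampler on finite graphs
-/

namespace Vale.Agent.P143

open SimpleGraph Finset Filter Topology unitInterval MeasureTheory
open scoped ENNReal

variable {V : Type*} [DecidableEq V]

/-- Product of uniform measures. -/
noncomputable def unifPi (ι : Type*) : Measure (ι → I) :=
  Measure.infinitePi fun _ : ι => (volume : Measure I)

instance {ι : Type*} : IsProbabilityMeasure (unifPi ι) := by unfold unifPi; infer_instance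

/-- Resampling one coordinate preserves the product measure. -/
lemma measurePreserving_resample {ι : Type*} [DecidableEq ι] (j : ι) :
    MeasurePreserving (fun p : (ι → I) × I => Function.update p.1 j p.2)
      ((unifPi ι).prod volume) (unifPi ι) := by
  have hm : Measurable fun p : (ι → I) × I => Function.update p.1 j p.2 := by
    refine measurable_pi_lambda _ fun i => ?_
    by_cases h : i = j
    · subst h
      simpa using measurable_snd
    · simp only [Function.update_of_ne h]
      exact (measurable_pi_apply i).comp measurable_fst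
  refine ⟨hm, Measure.eq_infinitePi _ fun s t ht => ?_⟩
  rw [Measure.map_apply hm (.pi s.countable_toSet fun i _ => ht i)]
  by_cases hj : j ∈ s
  · have : (fun p : (ι → I) × I => Function.update p.1 j p.2) ⁻¹' (Set.pi ↑s t) =
        (Set.pi ↑(s.erase j) t) ×ˢ (t j) := by
      ext ⟨f, v⟩
      simp only [Set.mem_preimage, Set.mem_pi, Finset.mem_coe, Set.mem_prod, Finset.mem_erase]
      constructor
      · intro h
        refine ⟨fun i hi => ?_, by simpa using h j hj⟩
        simpa [Function.update_of_ne hi.1] using h i hi.2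
      · intro h i hi
        by_cases hij : i = j
        · subst hij; simpa using h.2
        · simpa [Function.update_of_ne hij] using h.1 i ⟨hij, hi⟩
    rw [this, Measure.prod_prod, unifPi, Measure.infinitePi_pi _ (fun i _ => ht i),
      Finset.prod_erase_mul _ _ hj]
  · have : (fun p : (ι → I) × I => Function.update p.1 j p.2) ⁻¹' (Set.pi ↑s t) =
        (Set.pi ↑s t) ×ˢ Set.univ := by
      ext ⟨f, v⟩
      simp only [Set.mem_preimage, Set.mem_pi, Finset.mem_coe, Set.mem_prod, Set.mem_univ, and_true]
      refine forall₂_congr fun i hi => ?_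
      have hij : i ≠ j := fun h => hj (by rw [← h]; exact hi)
      simp [Function.update_of_ne hij]
    rw [this, Measure.prod_prod, unifPi, Measure.infinitePi_pi _ (fun i _ => ht i), measure_univ,
      mul_one]

/-- Sequential sampler on a finite edge set. -/
noncomputable def run (H : Finset (Sym2 V)) :
    List (Sym2 V × ℕ) → (Sym2 V → ℝ) → (Sym2 V × ℕ → I) → (Sym2 V → ℝ)
  | [], y, _ => y
  | p :: l, y, ω => run H l (Function.update y p.1 (y p.1 + inc (ω p) (prob H y p.1))) ω

/-- Observation law given the forest `T`, as an operator. -/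
noncomputable def RT (T : Finset (Sym2 V)) :
    List (Sym2 V × ℕ) → ((Sym2 V → ℝ) → ℝ≥0∞) → (Sym2 V → ℝ) → ℝ≥0∞
  | [], F, y => F y
  | p :: l, F, y => ∫⁻ v : I, ENNReal.ofReal (if p.1 ∈ T then f1 v else f0 v) *
      RT T l F (Function.update y p.1 (y p.1 + ell v))

lemma measurable_upd {Ω : Type*} [MeasurableSpace Ω] {Y : Ω → Sym2 V → ℝ} (hY : Measurable Y)
    {Z : Ω → ℝ} (hZ : Measurable Z) (e : Sym2 V) :
    Measurable fun ω => Function.update (Y ω) e (Z ω) := by
  refine measurable_pi_lambda _ fun f => ?_
  by_cases h : f = e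
  · subst h; simpa using hZ
  · simp only [Function.update_of_ne h]
    exact (measurable_pi_apply f).comp hY

lemma measurable_run (H : Finset (Sym2 V)) (l : List (Sym2 V × ℕ)) :
    Measurable fun q : (Sym2 V → ℝ) × (Sym2 V × ℕ → I) => run H l q.1 q.2 := by
  induction l with
  | nil => exact measurable_fst
  | cons p l ih =>
    refine Measurable.comp (g := fun q : (Sym2 V → ℝ) × (Sym2 V × ℕ → I) => run H l q.1 q.2)
      (f := fun q : (Sym2 V → ℝ) × (Sym2 V × ℕ → I) =>
        (Function.update q.1 p.1 (q.1 p.1 + inc (q.2 p) (prob H q.1 p.1)), q.2)) ih ?_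
    refine Measurable.prodMk (measurable_upd measurable_fst ?_ _) measurable_snd
    refine Measurable.add ((measurable_pi_apply p.1).comp measurable_fst) ?_
    exact Measurable.comp (g := Function.uncurry inc)
      (f := fun q : (Sym2 V → ℝ) × (Sym2 V × ℕ → I) => ((q.2 p : ℝ), prob H q.1 p.1))
      measurable_inc ((measurable_subtype_coe.comp ((measurable_pi_apply p).comp measurable_snd)).prodMk
        (measurable_prob H (fun f => (measurable_pi_apply f).comp measurable_fst) p.1))

lemma measurable_dens (P : Prop) [Decidable P] :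
    Measurable fun v : I => ENNReal.ofReal (if P then f1 v else f0 v) := by
  by_cases h : P
  · simp only [if_pos h]
    exact ENNReal.measurable_ofReal.comp (measurable_f1.comp measurable_subtype_coe)
  · simp only [if_neg h]
    exact ENNReal.measurable_ofReal.comp (measurable_f0.comp measurable_subtype_coe)

lemma measurable_RT (T : Finset (Sym2 V)) (l : List (Sym2 V × ℕ))
    {F : (Sym2 V → ℝ) → ℝ≥0∞} (hF : Measurable F) : Measurable (RT T l F) := by
  induction l with
  | nil => exact hF
  | cons p l ih =>
    refine Measurable.lintegral_prod_right' (ν := (volume : Measure I))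
      (f := fun q : (Sym2 V → ℝ) × I => ENNReal.ofReal (if p.1 ∈ T then f1 q.2 else f0 q.2) *
        RT T l F (Function.update q.1 p.1 (q.1 p.1 + ell q.2))) ?_
    exact ((measurable_dens _).comp measurable_snd).mul (ih.comp (measurable_upd measurable_fst
      (((measurable_pi_apply p.1).comp measurable_fst).add
        (measurable_ell.comp (measurable_subtype_coe.comp measurable_snd))) _))

/-- Bayes update. -/
lemma pT_update {H : Finset (Sym2 V)} (hH : ∀ f ∈ H, ¬ f.IsDiag) (y : Sym2 V → ℝ) (e : Sym2 V)
    {v : ℝ} (hv : v ∈ Set.Icc (0 : ℝ) 1) (T : Finset (Sym2 V)) :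
    mixd (prob H y e) v * pT H (Function.update y e (y e + ell v)) T =
      pT H y T * (if e ∈ T then f1 v else f0 v) := by
  set y' := Function.update y e (y e + ell v) with hy'
  have hwt : ∀ S : Finset (Sym2 V),
      wt y' S = wt y S * (if e ∈ S then f1 v / f0 v else 1) := by
    intro S
    have hs : ∀ f, y' f = y f + if f = e then ell v else 0 := by
      intro f
      by_cases h : f = e
      · subst h; simp [hy']
      · simp [hy', h]
    simp only [wt, hs, Finset.sum_add_distrib, Finset.sum_ite_eq', Real.exp_add]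
    congr 1
    split_ifs
    · exact exp_ell hv
    · exact Real.exp_zero
  have hf0 : f0 v ≠ 0 := by linarith [(f0_bounds hv).1]
  have hZ : Zf H y' * f0 v = Zf H y * mixd (prob H y e) v := by
    have hsplit : ∀ S, wt y' S * f0 v =
        (f1 v - f0 v) * (if e ∈ S then wt y S else 0) + f0 v * wt y S := by
      intro S
      rw [hwt]
      split_ifs <;> field_simp <;> ring
    rw [Zf, Finset.sum_mul, Finset.sum_congr rfl fun S _ => hsplit S, Finset.sum_add_distrib,
      ← Finset.mul_sum, ← Finset.mul_sum, ← Finset.sum_filter, mixd, prob]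
    have := (Zf_pos hH y).ne'
    field_simp
    unfold Zf
    ring
  have hZ' : Zf H y' = Zf H y * mixd (prob H y e) v / f0 v := by
    rw [← hZ, mul_div_assoc, div_self hf0, mul_one]
  have hm : mixd (prob H y e) v ≠ 0 := by
    intro h0
    rw [h0, mul_zero] at hZ
    exact hf0 ((mul_eq_zero.mp hZ).resolve_left (Zf_pos hH y').ne')
  have := (Zf_pos hH y).ne'
  rw [pT, pT, hwt, hZ']
  split_ifs <;> field_simp

omit [DecidableEq V] in
lemma pT_nonneg (H : Finset (Sym2 V)) (y : Sym2 V → ℝ) (T : Finset (Sym2 V)) : 0 ≤ pT H y T :=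
  div_nonneg (wt_pos _ _).le (Zf_nonneg _ _)

lemma dens_nonneg (P : Prop) [Decidable P] (v : I) : 0 ≤ (if P then f1 v else f0 v) := by
  split_ifs
  · linarith [(f1_bounds v.2).1]
  · linarith [(f0_bounds v.2).1]

/-- **Exactness**: the sequential sampler observes a random forest through the channel. -/
theorem run_law {H : Finset (Sym2 V)} (hH : ∀ f ∈ H, ¬ f.IsDiag) {l : List (Sym2 V × ℕ)}
    (hl : l.Nodup) {F : (Sym2 V → ℝ) → ℝ≥0∞} (hF : Measurable F) (y : Sym2 V → ℝ) :
    ∫⁻ ω, F (run H l y ω) ∂(unifPi (Sym2 V × ℕ)) =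
      ∑ T ∈ forests H, ENNReal.ofReal (pT H y T) * RT T l F y := by
  induction l generalizing y with
  | nil =>
    simp only [run, RT, lintegral_const, measure_univ, mul_one]
    rw [← Finset.sum_mul, ← ENNReal.ofReal_sum_of_nonneg fun T _ => pT_nonneg H y T,
      sum_pT hH y, ENNReal.ofReal_one, one_mul]
  | cons p l ih =>
    obtain ⟨hp, hl⟩ := List.nodup_cons.mp hl
    have ih' := ih hl
    have hq : prob H y p.1 ∈ Set.Icc (0 : ℝ) 1 := ⟨prob_nonneg _ _ _, prob_le_one _ _ _⟩
    have hrun : ∀ y' ω v, run H l y' (Function.update ω p v) = run H l y' ω := by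
      clear * - hp
      intro y' ω v
      induction l generalizing y' with
      | nil => rfl
      | cons q l ihl =>
        simp only [List.mem_cons, not_or] at hp
        simp only [run, Function.update_of_ne (Ne.symm hp.1)]
        exact ihl hp.2 _
    have hmeas : Measurable fun ω => F (run H (p :: l) y ω) :=
      hF.comp ((measurable_run H (p :: l)).comp (measurable_const.prodMk measurable_id))
    rw [← (measurePreserving_resample p).lintegral_comp hmeas]
    rw [lintegral_prod_symm (fun q : (Sym2 V × ℕ → I) × I =>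
        F (run H (p :: l) y (Function.update q.1 p q.2)))
      (hmeas.comp (measurePreserving_resample p).measurable).aemeasurable]
    simp only [run, Function.update_self, hrun, ih']
    rw [lintegral_inc hq fun z => ∑ T ∈ forests H,
      ENNReal.ofReal (pT H (Function.update y p.1 (y p.1 + z)) T) *
        RT T l F (Function.update y p.1 (y p.1 + z))]
    simp only [Finset.mul_sum, ← mul_assoc]
    have hint : ∀ T, Measurable fun v : I => ENNReal.ofReal (if p.1 ∈ T then f1 v else f0 v) *
        RT T l F (Function.update y p.1 (y p.1 + ell v)) := fun T =>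
      (measurable_dens _).mul ((measurable_RT T l hF).comp (measurable_upd measurable_const
        (measurable_const.add (measurable_ell.comp measurable_subtype_coe)) _))
    have heq : ∀ T (v : I), ENNReal.ofReal (mixd (prob H y p.1) v) *
        ENNReal.ofReal (pT H (Function.update y p.1 (y p.1 + ell v)) T) *
        RT T l F (Function.update y p.1 (y p.1 + ell v)) =
        ENNReal.ofReal (pT H y T) * (ENNReal.ofReal (if p.1 ∈ T then f1 v else f0 v) *
          RT T l F (Function.update y p.1 (y p.1 + ell v))) := fun T v => by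
      rw [← ENNReal.ofReal_mul (mixd_nonneg hq v.2), pT_update hH y p.1 v.2 T,
        ENNReal.ofReal_mul (pT_nonneg _ _ _), mul_assoc]
    simp only [heq]
    rw [lintegral_finsetSum _ fun T _ => (hint T).const_mul _]
    exact Finset.sum_congr rfl fun T _ => by rw [lintegral_const_mul _ (hint T)]; rfl

lemma lintegral_dens (P : Prop) [Decidable P] :
    ∫⁻ v : I, ENNReal.ofReal (if P then f1 v else f0 v) = 1 := by
  by_cases h : P
  · have := lintegral_inc (p := 1) (by simp) (fun _ => 1)
    simpa [mixd, h] using this.symm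
  · have := lintegral_inc (p := 0) (by simp) (fun _ => 1)
    simpa [mixd, h] using this.symm

lemma RT_const (T : Finset (Sym2 V)) (l : List (Sym2 V × ℕ)) (c : ℝ≥0∞) (y : Sym2 V → ℝ) :
    RT T l (fun _ => c) y = c := by
  induction l generalizing y with
  | nil => rfl
  | cons p l ih =>
    simp only [RT, ih]
    rw [lintegral_mul_const _ (measurable_dens _), lintegral_dens, one_mul]

lemma RT_mono (T : Finset (Sym2 V)) (l : List (Sym2 V × ℕ)) {F F' : (Sym2 V → ℝ) → ℝ≥0∞}
    (h : ∀ y, F y ≤ F' y) (y : Sym2 V → ℝ) : RT T l F y ≤ RT T l F' y := by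
  induction l generalizing y with
  | nil => exact h y
  | cons p l ih => exact lintegral_mono fun v => mul_le_mul_right (ih _) _

lemma RT_add (T : Finset (Sym2 V)) (l : List (Sym2 V × ℕ)) {F F' : (Sym2 V → ℝ) → ℝ≥0∞}
    (hF : Measurable F) (y : Sym2 V → ℝ) :
    RT T l (fun y => F y + F' y) y = RT T l F y + RT T l F' y := by
  induction l generalizing y with
  | nil => rfl
  | cons p l ih =>
    simp only [RT, ih, mul_add]
    refine lintegral_add_left ?_ _
    exact (measurable_dens _).mul ((measurable_RT T l hF).comp (measurable_upd measurable_const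
      (measurable_const.add (measurable_ell.comp measurable_subtype_coe)) _))

lemma RT_smul (T : Finset (Sym2 V)) (l : List (Sym2 V × ℕ)) {F : (Sym2 V → ℝ) → ℝ≥0∞}
    (hF : Measurable F) (c : ℝ≥0∞) (y : Sym2 V → ℝ) :
    RT T l (fun y => c * F y) y = c * RT T l F y := by
  induction l generalizing y with
  | nil => rfl
  | cons p l ih =>
    simp only [RT, ih]
    rw [← lintegral_const_mul]
    · exact lintegral_congr fun v => mul_left_comm _ _ _
    · exact (measurable_dens _).mul ((measurable_RT T l hF).comp (measurable_upd measurable_const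
        (measurable_const.add (measurable_ell.comp measurable_subtype_coe)) _))

/-- Chernoff function for an erroneous decision at `e`. -/
noncomputable def errF (T : Finset (Sym2 V)) (e : Sym2 V) (y : Sym2 V → ℝ) : ℝ≥0∞ :=
  ENNReal.ofReal (Real.exp ((if e ∈ T then -1 else 1) * y e / 2))

lemma measurable_errF (T : Finset (Sym2 V)) (e : Sym2 V) : Measurable (errF T e) :=
  ENNReal.measurable_ofReal.comp (Real.measurable_exp.comp
    (((measurable_pi_apply e).const_mul _).div_const _))

lemma chernoff_step (P : Prop) [Decidable P] (v : I) :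
    (if P then f1 v else f0 v) * Real.exp ((if P then -1 else 1) * ell v / 2) =
      Real.sqrt (f1 v * f0 v) := by
  have h1 : 0 < f1 v := by linarith [(f1_bounds v.2).1]
  have h0 : 0 < f0 v := by linarith [(f0_bounds v.2).1]
  rw [← Real.sqrt_sq (mul_nonneg (dens_nonneg P v) (Real.exp_pos _).le)]
  congr 1
  rw [mul_pow, ← Real.exp_nat_mul]
  push_cast
  split_ifs
  · rw [show (2 : ℝ) * (-1 * ell v / 2) = - ell v by ring, Real.exp_neg, exp_ell v.2]
    field_simp
  · rw [show (2 : ℝ) * (1 * ell v / 2) = ell v by ring, exp_ell v.2]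
    field_simp

lemma RT_errF (T : Finset (Sym2 V)) (l : List (Sym2 V × ℕ)) (e : Sym2 V) (y : Sym2 V → ℝ) :
    RT T l (errF T e) y = errF T e y * beta ^ l.countP (fun p => decide (p.1 = e)) := by
  induction l generalizing y with
  | nil => simp [RT]
  | cons p l ih =>
    simp only [RT, ih, List.countP_cons]
    by_cases hpe : p.1 = e
    · subst hpe
      simp only [decide_true, if_true, pow_succ]
      set B := beta ^ l.countP (fun q => decide (q.1 = p.1)) with hB
      have hBtop : B ≠ ⊤ := ENNReal.pow_ne_top (ne_top_of_le_ne_top ENNReal.one_ne_top beta_lt_one.le)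
      rw [beta, ← lintegral_const_mul' _ _ hBtop, ← lintegral_const_mul' _ _ (by simp [errF])]
      refine lintegral_congr fun v => ?_
      rw [← chernoff_step (p.1 ∈ T) v, ENNReal.ofReal_mul (dens_nonneg _ v)]
      simp only [errF, Function.update_self]
      rw [mul_add, add_div, Real.exp_add, ENNReal.ofReal_mul (Real.exp_pos _).le]
      ring
    · simp only [hpe, decide_false, Bool.false_eq_true, if_false, add_zero]
      have hu : ∀ z, errF T e (Function.update y p.1 z) = errF T e y := fun z => by
        simp [errF, Function.update_of_ne (Ne.symm hpe)]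
      simp only [hu]
      rw [lintegral_mul_const _ (measurable_dens _), lintegral_dens, one_mul]

/-- The list of observations of the first `k` rounds. -/
def obs (L : List (Sym2 V)) : ℕ → List (Sym2 V × ℕ)
  | 0 => []
  | k + 1 => obs L k ++ L.map (fun e => (e, k))

omit [DecidableEq V] in
lemma mem_obs {L : List (Sym2 V)} {k : ℕ} {p : Sym2 V × ℕ} :
    p ∈ obs L k → p.1 ∈ L ∧ p.2 < k := by
  induction k with
  | zero => simp [obs]
  | succ k ih =>
    simp only [obs, List.mem_append, List.mem_map]
    rintro (h | ⟨e, he, rfl⟩)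
    · exact ⟨(ih h).1, (ih h).2.trans (Nat.lt_succ_self k)⟩
    · exact ⟨he, Nat.lt_succ_self k⟩

omit [DecidableEq V] in
lemma obs_nodup {L : List (Sym2 V)} (hL : L.Nodup) (k : ℕ) : (obs L k).Nodup := by
  induction k with
  | zero => simp [obs]
  | succ k ih =>
    refine List.nodup_append.mpr ⟨ih, hL.map (fun a b h => (Prod.mk.injEq _ _ _ _).mp h |>.1), ?_⟩
    intro a ha b hb
    obtain ⟨e, _, rfl⟩ := List.mem_map.mp hb
    intro h
    subst h
    exact (mem_obs ha).2.ne rfl

lemma obs_count {L : List (Sym2 V)} (hL : L.Nodup) {e : Sym2 V} (he : e ∈ L) (k : ℕ) :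
    (obs L k).countP (fun p => decide (p.1 = e)) = k := by
  induction k with
  | zero => simp [obs]
  | succ k ih =>
    rw [obs, List.countP_append, ih, List.countP_map]
    congr 1
    rw [show ((fun p : Sym2 V × ℕ => decide (p.1 = e)) ∘ fun f => (f, k)) = fun f => f == e from
      funext fun f => (beq_eq_decide (a := f) (b := e)).symm]
    exact List.count_eq_one_of_mem hL he

lemma run_append (H : Finset (Sym2 V)) (l l' : List (Sym2 V × ℕ)) (y : Sym2 V → ℝ)
    (ω : Sym2 V × ℕ → I) : run H (l ++ l') y ω = run H l' (run H l y ω) ω := by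
  induction l generalizing y with
  | nil => rfl
  | cons p l ih => simp only [List.cons_append, run, ih]

omit [DecidableEq V] in
lemma wt_congr {y y' : Sym2 V → ℝ} {T : Finset (Sym2 V)} (h : ∀ f ∈ T, y f = y' f) :
    wt y T = wt y' T := by
  rw [wt, wt, Finset.sum_congr rfl h]

lemma prob_congr {H : Finset (Sym2 V)} {y y' : Sym2 V → ℝ} (h : ∀ f ∈ H, y f = y' f)
    (e : Sym2 V) : prob H y e = prob H y' e := by
  have hw : ∀ T ∈ forests H, wt y T = wt y' T := fun T hT =>
    wt_congr fun f hf => h f ((mem_forests.mp hT).1 hf)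
  unfold prob Zf
  rw [Finset.sum_congr rfl hw, Finset.sum_congr rfl fun T hT => hw T (Finset.mem_filter.mp hT).1]

/-- The sequential sampler solves the round equation. -/
lemma run_round {H : Finset (Sym2 V)} (hH : ∀ f ∈ H, ¬ f.IsDiag)
    {lt : Sym2 V → Sym2 V → Prop} (hasymm : ∀ a ∈ H, ∀ b ∈ H, lt a b → ¬ lt b a)
    {L : List (Sym2 V)} (hLmem : ∀ f, f ∈ L ↔ f ∈ H) (hnd : L.Nodup) (hpw : L.Pairwise lt)
    {ω : Sym2 V × ℕ → I} (k : ℕ) {y : Sym2 V → ℝ} {Q : List (Sym2 V)} :
    ∀ (P : List (Sym2 V)) (y' : Sym2 V → ℝ), L = P ++ Q →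
      (∀ f ∈ H, y' f = y f +
        if f ∈ P then roundFix (gr H) lt (fun g => ω (g, k)) y f else 0) →
      ∀ f ∈ H, run H (Q.map fun g => (g, k)) y' ω f =
        y f + roundFix (gr H) lt (fun g => ω (g, k)) y f := by
  classical
  induction Q with
  | nil =>
    intro P y' hP hy f hf
    simp only [List.map_nil, run]
    rw [hy f hf, if_pos]
    simpa [hP] using (hLmem f).mpr hf
  | cons e Q ih =>
    intro P y' hP hy
    have heH : e ∈ H := (hLmem e).mp (by simp [hP])
    have hnd' := hP ▸ hnd
    have hpw' := hP ▸ hpw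
    rw [List.nodup_append] at hnd'
    rw [List.pairwise_append, List.pairwise_cons] at hpw'
    have heP : e ∉ P := fun h => hnd'.2.2 e h e (by simp) rfl
    have hlt : ∀ f ∈ H, (lt f e ↔ f ∈ P) := by
      intro f hf
      refine ⟨fun h => ?_, fun h => hpw'.2.2 f h e (by simp)⟩
      have hfL := (hLmem f).mpr hf
      rw [hP, List.mem_append, List.mem_cons] at hfL
      rcases hfL with h' | h' | h'
      · exact h'
      · exact absurd h (h' ▸ fun hh => hasymm e heH e heH (h' ▸ hh) (h' ▸ hh))
      · exact absurd h (hasymm e heH f hf (hpw'.2.1.1 f h'))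
    set d := roundFix (gr H) lt (fun g => ω (g, k)) y with hd
    have hstep : inc (ω (e, k)) (prob H y' e) = d e := by
      rw [hd, ← roundFix_eq, roundMap, marg_finite hH _ heH]
      congr 1
      refine prob_congr (fun f hf => ?_) e
      rw [hy f hf, bump, if_congr (hlt f hf).symm rfl rfl]
    refine ih (P ++ [e]) _ (by simp [hP]) fun f hf => ?_
    by_cases hfe : f = e
    · subst hfe
      rw [Function.update_self, hy f hf, if_neg heP, if_pos (by simp), hstep, add_zero]
    · rw [Function.update_of_ne hfe, hy f hf]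
      exact congrArg (y f + ·) (if_congr (by simp [hfe]) rfl rfl)

lemma run_eq_state {H : Finset (Sym2 V)} (hH : ∀ f ∈ H, ¬ f.IsDiag)
    {lt : Sym2 V → Sym2 V → Prop} (hasymm : ∀ a ∈ H, ∀ b ∈ H, lt a b → ¬ lt b a)
    {L : List (Sym2 V)} (hLmem : ∀ f, f ∈ L ↔ f ∈ H) (hnd : L.Nodup) (hpw : L.Pairwise lt)
    (ω : Sym2 V × ℕ → I) (k : ℕ) :
    ∀ e ∈ H, run H (obs L k) (fun _ => 0) ω e = state (gr H) lt ω k e := by
  classical
  induction k with
  | zero => intro e _; rfl
  | succ k ih =>
    intro e he
    rw [obs, run_append]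
    exact run_round hH hasymm hLmem hnd hpw k (y := state (gr H) lt ω k) [] _ rfl
      (fun f hf => by simp [ih f hf]) e he

omit [DecidableEq V] in
lemma exists_sorted {α : Type*} [LinearOrder α] (key : Sym2 V → α) (H : Finset (Sym2 V))
    (hinj : Set.InjOn key ↑H) :
    ∃ L : List (Sym2 V), (∀ f, f ∈ L ↔ f ∈ H) ∧ L.Nodup ∧
      L.Pairwise (fun a b => key a < key b) := by
  classical
  induction H using Finset.induction_on_max_value key with
  | empty => exact ⟨[], by simp, List.nodup_nil, List.Pairwise.nil⟩
  | insert a s ha hmax ih =>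
    obtain ⟨L, h1, h2, h3⟩ := ih (hinj.mono (by simp))
    refine ⟨L ++ [a], fun f => ?_, ?_, ?_⟩
    · simp [h1, or_comm]
    · rw [List.nodup_append]
      refine ⟨h2, List.nodup_singleton a, ?_⟩
      intro x hx b hb
      rw [List.mem_singleton] at hb
      subst hb
      rintro rfl
      exact ha ((h1 x).mp hx)
    · rw [List.pairwise_append]
      refine ⟨h3, List.pairwise_singleton _ _, fun x hx b hb => ?_⟩
      rw [List.mem_singleton] at hb
      subst hb
      refine lt_of_le_of_ne (hmax x ((h1 x).mp hx)) fun h => ?_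
      exact ha (hinj (by simp [(h1 x).mp hx]) (by simp) h ▸ (h1 x).mp hx)

/-- General error bound for the finite sampler. -/
theorem finite_bound {α : Type*} [LinearOrder α] {H : Finset (Sym2 V)}
    (hH : ∀ f ∈ H, ¬ f.IsDiag) (key : Sym2 V → α) (hinj : Set.InjOn key ↑H) (k : ℕ)
    {E : Finset (Sym2 V)} (hE : E ⊆ H) {P : Set (Sym2 V → ℝ)} (hP : MeasurableSet P)
    (hPcongr : ∀ y y' : Sym2 V → ℝ, (∀ f ∈ E, y f = y' f) → y ∈ P → y' ∈ P)
    (χ : Finset (Sym2 V) → ℝ≥0∞) (c : ℝ≥0∞)
    (hbd : ∀ T, ∀ y ∈ P, (1 : ℝ≥0∞) ≤ χ T + c * ∑ e ∈ E, errF T e y) :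
    unifPi (Sym2 V × ℕ) {ω | state (gr H) (fun a b => key a < key b) ω k ∈ P} ≤
      (∑ T ∈ forests H, ENNReal.ofReal (pT H (fun _ => 0) T) * χ T) +
        c * (E.card * beta ^ k) := by
  classical
  obtain ⟨L, hL1, hL2, hL3⟩ := exists_sorted key H hinj
  have hasymm : ∀ a ∈ H, ∀ b ∈ H, key a < key b → ¬ key b < key a := fun _ _ _ _ h => lt_asymm h
  have hset : {ω | state (gr H) (fun a b => key a < key b) ω k ∈ P} =
      {ω | run H (obs L k) (fun _ => 0) ω ∈ P} := by
    ext ω
    have hr := run_eq_state (lt := fun a b => key a < key b) hH hasymm hL1 hL2 hL3 ω k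
    exact ⟨hPcongr _ _ fun f hf => (hr f (hE hf)).symm, hPcongr _ _ fun f hf => hr f (hE hf)⟩
  rw [hset]
  have hmr : Measurable fun ω => run H (obs L k) (fun _ => 0) ω :=
    (measurable_run H _).comp (measurable_const.prodMk measurable_id)
  have hPm : Measurable (P.indicator (1 : (Sym2 V → ℝ) → ℝ≥0∞)) := measurable_one.indicator hP
  calc unifPi (Sym2 V × ℕ) {ω | run H (obs L k) (fun _ => 0) ω ∈ P}
      = ∫⁻ ω, P.indicator 1 (run H (obs L k) (fun _ => 0) ω) ∂(unifPi (Sym2 V × ℕ)) := by
        exact (lintegral_indicator_one (hmr hP)).symm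
    _ = ∑ T ∈ forests H, ENNReal.ofReal (pT H (fun _ => 0) T) *
          RT T (obs L k) (P.indicator 1) (fun _ => 0) :=
        run_law hH (obs_nodup hL2 k) hPm _
    _ ≤ ∑ T ∈ forests H, ENNReal.ofReal (pT H (fun _ => 0) T) *
          (χ T + c * (E.card * beta ^ k)) := by
        refine Finset.sum_le_sum fun T _ => mul_le_mul_right ?_ _
        have h1 : RT T (obs L k) (P.indicator 1) (fun _ => 0) ≤
            RT T (obs L k) (fun y => χ T + c * ∑ e ∈ E, errF T e y) (fun _ => 0) := by
          refine RT_mono T _ (fun y => ?_) _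
          by_cases hy : y ∈ P
          · rw [Set.indicator_of_mem hy]; exact hbd T y hy
          · rw [Set.indicator_of_notMem hy]; exact zero_le
        refine h1.trans (le_of_eq ?_)
        rw [RT_add T _ measurable_const, RT_const,
          RT_smul T _ (Finset.measurable_sum E fun e _ => measurable_errF T e)]
        congr 2
        have hsum : ∀ E' : Finset (Sym2 V), E' ⊆ H →
            RT T (obs L k) (fun y => ∑ e ∈ E', errF T e y) (fun _ => 0) = E'.card * beta ^ k := by
          intro E'
          induction E' using Finset.induction_on with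
          | empty => intro _; simp [RT_const]
          | insert a s ha ih =>
            intro hs
            simp only [Finset.sum_insert ha]
            rw [RT_add T _ (measurable_errF T a), RT_errF, ih ((Finset.subset_insert a s).trans hs),
              obs_count hL2 ((hL1 a).mpr (hs (Finset.mem_insert_self a s))),
              Finset.card_insert_of_notMem ha]
            simp [errF, add_mul, add_comm]
        exact hsum E hE
    _ = _ := by
        simp only [mul_add, Finset.sum_add_distrib]
        congr 1
        rw [← Finset.sum_mul, ← ENNReal.ofReal_sum_of_nonneg fun T _ => pT_nonneg H _ T,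
          sum_pT hH, ENNReal.ofReal_one, one_mul]

end Vale.Agent.P143
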