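import Mathlib.Combinatorics.SimpleGraph.Acyclic
import Mathlib.Analysis.SpecialFunctions.Exp
import Mathlib.Algebra.BigOperators.Finprod
import Mathlib.Algebra.BigOperators.Field

/-!
# Weighted spanning forests of a finite edge set, flows, and Kirchhoff's formula
-/

namespace Vale.Agent.P143

open SimpleGraph Finset

variable {V : Type*}

/-- The simple graph with edge set given by a finset. -/
def gr (T : Finset (Sym2 V)) : SimpleGraph V := fromEdgeSet (↑T)

lemma gr_adj {T : Finset (Sym2 V)} {a b : V} : (gr T).Adj a b ↔ s(a, b) ∈ T ∧ a ≠ b := by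
  simp [gr]

lemma gr_mono {S T : Finset (Sym2 V)} (h : S ⊆ T) : gr S ≤ gr T := by
  intro a b hab
  rw [gr_adj] at hab ⊢
  exact ⟨h hab.1, hab.2⟩

/-- A spanning forest of the finite edge set `H`. -/
def IsForest (T H : Finset (Sym2 V)) : Prop :=
  T ⊆ H ∧ (gr T).IsAcyclic ∧ ∀ a b, s(a, b) ∈ H → (gr T).Reachable a b

lemma IsForest.subset {T H : Finset (Sym2 V)} (h : IsForest T H) : T ⊆ H := h.1

lemma exists_isForest (H : Finset (Sym2 V)) (hH : ∀ f ∈ H, ¬ f.IsDiag) :
    ∃ T, IsForest T H := by
  classical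
  obtain ⟨F, hle, hac, hreach⟩ := exists_isAcyclic_reachable_eq_le (G := gr H)
  refine ⟨H.filter (fun f => f ∈ F.edgeSet), Finset.filter_subset _ _, ?_, ?_⟩
  · refine hac.anti ?_
    intro a b hab
    rw [gr_adj] at hab
    simpa using (Finset.mem_filter.mp hab.1).2
  · intro a b hab
    have hne : a ≠ b := fun h => hH _ hab (by simp [h])
    have h1 : F.Reachable a b := by
      rw [hreach]
      exact Adj.reachable (gr_adj.mpr ⟨hab, hne⟩)
    refine h1.mono ?_
    intro c d hcd
    have := gr_adj.mp (hle hcd)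
    exact gr_adj.mpr ⟨Finset.mem_filter.mpr ⟨this.1, hcd⟩, this.2⟩

variable [DecidableEq V]

lemma gr_insert (T : Finset (Sym2 V)) (a b : V) : gr (insert s(a, b) T) = gr T ⊔ edge a b := by
  ext u v
  simp [gr_adj, edge_adj]
  tauto

lemma gr_erase (T : Finset (Sym2 V)) (f : Sym2 V) : gr (T.erase f) = (gr T).deleteEdges {f} := by
  ext u v
  simp [gr_adj]
  tauto

/-- Reachability after adding one edge. -/
lemma reachable_sup_edge {F : SimpleGraph V} {a b u v : V} :
    (F ⊔ edge a b).Reachable u v ↔
      F.Reachable u v ∨ (F.Reachable u a ∧ F.Reachable b v) ∨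
        (F.Reachable u b ∧ F.Reachable a v) := by
  constructor
  · rintro ⟨p⟩
    induction p with
    | nil => exact Or.inl (Reachable.refl _)
    | @cons u w v h p ih =>
      rcases h with h | h
      · have huw : F.Reachable u w := h.reachable
        rcases ih with ih | ⟨i1, i2⟩ | ⟨i1, i2⟩
        · exact Or.inl (huw.trans ih)
        · exact Or.inr (Or.inl ⟨huw.trans i1, i2⟩)
        · exact Or.inr (Or.inr ⟨huw.trans i1, i2⟩)
      · rw [edge_adj] at h
        rcases h.1 with ⟨rfl, rfl⟩ | ⟨rfl, rfl⟩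
        · rcases ih with ih | ⟨_, i2⟩ | ⟨_, i2⟩
          · exact Or.inr (Or.inl ⟨Reachable.refl _, ih⟩)
          · exact Or.inr (Or.inl ⟨Reachable.refl _, i2⟩)
          · exact Or.inl i2
        · rcases ih with ih | ⟨_, i2⟩ | ⟨_, i2⟩
          · exact Or.inr (Or.inr ⟨Reachable.refl _, ih⟩)
          · exact Or.inl i2
          · exact Or.inr (Or.inr ⟨Reachable.refl _, i2⟩)
  · have hle : F ≤ F ⊔ edge a b := le_sup_left
    have hab : (F ⊔ edge a b).Reachable a b := by
      by_cases hab : a = b
      · subst hab; exact Reachable.refl _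
      · exact Adj.reachable (Or.inr (by simp [edge_adj, hab]))
    rintro (h | ⟨h1, h2⟩ | ⟨h1, h2⟩)
    · exact h.mono hle
    · exact ((h1.mono hle).trans hab).trans (h2.mono hle)
    · exact ((h1.mono hle).trans hab.symm).trans (h2.mono hle)

/-- In an acyclic edge set, the endpoints of an edge are disconnected once it is removed. -/
lemma not_reach_erase {T : Finset (Sym2 V)} (hT : (gr T).IsAcyclic) {a b : V}
    (hab : s(a, b) ∈ T) (hne : a ≠ b) : ¬ (gr (T.erase s(a, b))).Reachable a b := by
  rw [gr_erase]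
  exact isAcyclic_iff_forall_adj_isBridge.mp hT (gr_adj.mpr ⟨hab, hne⟩)

lemma reach_split {T : Finset (Sym2 V)} {a b : V} (hab : s(a, b) ∈ T) {u v : V} :
    (gr T).Reachable u v ↔
      (gr (T.erase s(a, b))).Reachable u v ∨
        ((gr (T.erase s(a, b))).Reachable u a ∧ (gr (T.erase s(a, b))).Reachable b v) ∨
        ((gr (T.erase s(a, b))).Reachable u b ∧ (gr (T.erase s(a, b))).Reachable a v) := by
  conv_lhs => rw [← Finset.insert_erase hab, gr_insert]
  exact reachable_sup_edge

/-! ### Forest weights -/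

open scoped Classical in
/-- The set of spanning forests of `H`. -/
noncomputable def forests (H : Finset (Sym2 V)) : Finset (Finset (Sym2 V)) :=
  H.powerset.filter (fun T => IsForest T H)

omit [DecidableEq V] in
lemma mem_forests {T H : Finset (Sym2 V)} : T ∈ forests H ↔ IsForest T H := by
  simp only [forests, Finset.mem_filter, Finset.mem_powerset]
  exact ⟨fun h => h.2, fun h => ⟨h.1, h⟩⟩

/-- The weight of an edge set under tilts `y`. -/
noncomputable def wt (y : Sym2 V → ℝ) (T : Finset (Sym2 V)) : ℝ := Real.exp (∑ f ∈ T, y f)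

omit [DecidableEq V] in
lemma wt_pos (y : Sym2 V → ℝ) (T : Finset (Sym2 V)) : 0 < wt y T := Real.exp_pos _

/-- Partition function of weighted spanning forests. -/
noncomputable def Zf (H : Finset (Sym2 V)) (y : Sym2 V → ℝ) : ℝ := ∑ T ∈ forests H, wt y T

/-- Probability of a spanning forest. -/
noncomputable def pT (H : Finset (Sym2 V)) (y : Sym2 V → ℝ) (T : Finset (Sym2 V)) : ℝ :=
  wt y T / Zf H y

/-- Probability that edge `e` is in the weighted random spanning forest. -/
noncomputable def prob (H : Finset (Sym2 V)) (y : Sym2 V → ℝ) (e : Sym2 V) : ℝ :=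
  (∑ T ∈ forests H with e ∈ T, wt y T) / Zf H y

omit [DecidableEq V] in
lemma Zf_pos {H : Finset (Sym2 V)} (hH : ∀ f ∈ H, ¬ f.IsDiag) (y : Sym2 V → ℝ) :
    0 < Zf H y := by
  obtain ⟨T, hT⟩ := exists_isForest H hH
  exact Finset.sum_pos (fun _ _ => wt_pos _ _) ⟨T, mem_forests.mpr hT⟩

omit [DecidableEq V] in
lemma Zf_nonneg (H : Finset (Sym2 V)) (y : Sym2 V → ℝ) : 0 ≤ Zf H y :=
  Finset.sum_nonneg (fun _ _ => (wt_pos _ _).le)

lemma prob_nonneg (H : Finset (Sym2 V)) (y : Sym2 V → ℝ) (e : Sym2 V) : 0 ≤ prob H y e :=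
  div_nonneg (Finset.sum_nonneg fun _ _ => (wt_pos _ _).le) (Zf_nonneg _ _)

lemma prob_le_one (H : Finset (Sym2 V)) (y : Sym2 V → ℝ) (e : Sym2 V) : prob H y e ≤ 1 := by
  refine div_le_one_of_le₀ ?_ (Zf_nonneg _ _)
  exact Finset.sum_le_sum_of_subset_of_nonneg (Finset.filter_subset _ _)
    fun _ _ _ => (wt_pos _ _).le

/-! ### Flows -/

/-- A unit flow from `x` to `y` on the edge set `H`. -/
structure IsFlow (H : Finset (Sym2 V)) (x y : V) (θ : V → V → ℝ) : Prop where
  anti : ∀ a b, θ a b = - θ b a
  supp : ∀ a b, s(a, b) ∉ H → θ a b = 0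
  div : ∀ a, ∑ᶠ b, θ a b = (if a = x then (1 : ℝ) else 0) - (if a = y then (1 : ℝ) else 0)

/-- The endpoints of the edges of `H`. -/
def endpts (H : Finset (Sym2 V)) : Finset V := H.biUnion Sym2.toFinset

lemma mem_endpts_left {H : Finset (Sym2 V)} {a b : V} (h : s(a, b) ∈ H) : a ∈ endpts H := by
  simp only [endpts, Finset.mem_biUnion]
  exact ⟨_, h, by simp⟩

lemma mem_endpts_right {H : Finset (Sym2 V)} {a b : V} (h : s(a, b) ∈ H) : b ∈ endpts H :=
  mem_endpts_left (Sym2.eq_swap ▸ h)

/-- `θ a b ^ 2` as a function of the edge. -/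
noncomputable def sq (θ : V → V → ℝ) (f : Sym2 V) : ℝ :=
  Sym2.lift ⟨fun a b => (θ a b ^ 2 + θ b a ^ 2) / 2, fun a b => by ring⟩ f

omit [DecidableEq V] in
lemma sq_nonneg' (θ : V → V → ℝ) (f : Sym2 V) : 0 ≤ sq θ f := by
  induction f using Sym2.ind with
  | _ a b => simp only [sq, Sym2.lift_mk]; positivity

/-- The bilinear product of two edge functions. -/
noncomputable def dot (θ η : V → V → ℝ) (f : Sym2 V) : ℝ :=
  Sym2.lift ⟨fun a b => (θ a b * η a b + θ b a * η b a) / 2, fun a b => by ring⟩ f

/-- Energy of a flow with conductances `exp (y f)`. -/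
noncomputable def energy (H : Finset (Sym2 V)) (y : Sym2 V → ℝ) (θ : V → V → ℝ) : ℝ :=
  ∑ f ∈ H, sq θ f * Real.exp (- y f)

omit [DecidableEq V] in
lemma energy_nonneg (H : Finset (Sym2 V)) (y : Sym2 V → ℝ) (θ : V → V → ℝ) :
    0 ≤ energy H y θ :=
  Finset.sum_nonneg fun _ _ => mul_nonneg (sq_nonneg' _ _) (Real.exp_pos _).le

omit [DecidableEq V] in
lemma energy_add (H : Finset (Sym2 V)) (y : Sym2 V → ℝ) (θ η : V → V → ℝ) :
    energy H y (fun a b => θ a b + η a b) =
      energy H y θ + energy H y η + 2 * ∑ f ∈ H, dot θ η f * Real.exp (- y f) := by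
  simp only [energy, Finset.mul_sum, ← Finset.sum_add_distrib]
  refine Finset.sum_congr rfl fun f _ => ?_
  induction f using Sym2.ind with
  | _ a b => simp only [sq, dot, Sym2.lift_mk]; ring

lemma IsFlow.mono {H H' : Finset (Sym2 V)} {x y : V} {θ : V → V → ℝ} (h : IsFlow H x y θ)
    (hH : H ⊆ H') : IsFlow H' x y θ :=
  ⟨h.anti, fun a b hab => h.supp a b (fun hh => hab (hH hh)), h.div⟩

lemma IsFlow.div_sum {H : Finset (Sym2 V)} {x y : V} {θ : V → V → ℝ} (h : IsFlow H x y θ)
    (a : V) : ∑ b ∈ endpts H, θ a b =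
      (if a = x then (1 : ℝ) else 0) - (if a = y then (1 : ℝ) else 0) := by
  rw [← h.div a, eq_comm]
  refine finsum_eq_sum_of_support_subset _ fun b hb => ?_
  simp only [Function.mem_support] at hb
  by_contra hb'
  exact hb (h.supp a b fun hh => hb' (mem_endpts_right hh))

omit [DecidableEq V] in
lemma sum_flow_energy_subset {H H' : Finset (Sym2 V)} (hH : H ⊆ H') (y : Sym2 V → ℝ)
    {θ : V → V → ℝ} (hs : ∀ a b, s(a, b) ∉ H → θ a b = 0) :
    energy H' y θ = energy H y θ := by
  refine (Finset.sum_subset hH ?_).symm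
  intro f _ hf
  induction f using Sym2.ind with
  | _ a b =>
    simp [sq, hs a b hf, hs b a (by rwa [Sym2.eq_swap])]

/-- Double counting of ordered pairs versus edges. -/
lemma sum_pairs (H : Finset (Sym2 V)) (hH : ∀ f ∈ H, ¬ f.IsDiag) (g : V → V → ℝ)
    (hg : ∀ a b, s(a, b) ∉ H → g a b = 0) :
    ∑ a ∈ endpts H, ∑ b ∈ endpts H, g a b =
      ∑ f ∈ H, Sym2.lift ⟨fun a b => g a b + g b a, fun a b => by ring⟩ f := by
  classical
  rw [← Finset.sum_product']
  have h1 : ∑ p ∈ endpts H ×ˢ endpts H, g p.1 p.2 =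
      ∑ p ∈ (endpts H ×ˢ endpts H).filter (fun p => s(p.1, p.2) ∈ H), g p.1 p.2 := by
    refine (Finset.sum_filter_of_ne fun p _ hp => ?_).symm
    by_contra hc
    exact hp (hg _ _ hc)
  rw [h1, ← Finset.sum_fiberwise_of_maps_to (g := fun p : V × V => s(p.1, p.2)) (t := H)
    (fun p hp => (Finset.mem_filter.mp hp).2)]
  refine Finset.sum_congr rfl fun f hf => ?_
  induction f using Sym2.ind with
  | _ a b =>
    have hab : a ≠ b := fun h => hH _ hf (by simp [h])
    have : ((endpts H ×ˢ endpts H).filter (fun p => s(p.1, p.2) ∈ H)).filter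
        (fun p => s(p.1, p.2) = s(a, b)) = {(a, b), (b, a)} := by
      ext ⟨c, d⟩
      simp only [Finset.mem_filter, Finset.mem_product, Finset.mem_insert, Finset.mem_singleton,
        Prod.mk.injEq, Sym2.eq_iff]
      constructor
      · exact fun h => h.2
      · rintro (⟨rfl, rfl⟩ | ⟨rfl, rfl⟩)
        · exact ⟨⟨⟨mem_endpts_left hf, mem_endpts_right hf⟩, hf⟩, Or.inl ⟨rfl, rfl⟩⟩
        · exact ⟨⟨⟨mem_endpts_right hf, mem_endpts_left hf⟩, Sym2.eq_swap ▸ hf⟩,
            Or.inr ⟨rfl, rfl⟩⟩
    rw [this, Finset.sum_pair (by simp [hab])]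
    simp

/-- Pairing a flow with a gradient. -/
lemma IsFlow.sum_grad {H : Finset (Sym2 V)} {x y : V} {θ : V → V → ℝ} (h : IsFlow H x y θ)
    (hH : ∀ f ∈ H, ¬ f.IsDiag) (hxy : s(x, y) ∈ H) (pot : V → ℝ) :
    ∑ f ∈ H, dot θ (fun a b => pot a - pot b) f = pot x - pot y := by
  have h2 : ∑ a ∈ endpts H, ∑ b ∈ endpts H, θ a b * pot a = pot x - pot y := by
    have : ∀ a ∈ endpts H, ∑ b ∈ endpts H, θ a b * pot a =
        (if a = x then pot a else 0) - (if a = y then pot a else 0) := by
      intro a _
      rw [← Finset.sum_mul, h.div_sum a]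
      split_ifs <;> ring
    rw [Finset.sum_congr rfl this, Finset.sum_sub_distrib, Finset.sum_ite_eq', Finset.sum_ite_eq',
      if_pos (mem_endpts_left hxy), if_pos (mem_endpts_right hxy)]
  rw [← h2, sum_pairs H hH _ (fun a b hab => by simp [h.supp a b hab])]
  refine Finset.sum_congr rfl fun f _ => ?_
  induction f using Sym2.ind with
  | _ a b =>
    simp only [dot, Sym2.lift_mk]
    rw [h.anti b a]
    ring

/-! ### The path flow of a forest -/

open scoped Classical in
/-- The unit flow along the path from `x` to `y` in the forest `T`. -/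
noncomputable def pathFlow (T : Finset (Sym2 V)) (x y a b : V) : ℝ :=
  if s(a, b) ∈ T then
    (if (gr (T.erase s(a, b))).Reachable x a ∧ (gr (T.erase s(a, b))).Reachable y b then 1 else 0)
      - (if (gr (T.erase s(a, b))).Reachable x b ∧ (gr (T.erase s(a, b))).Reachable y a then 1 else 0)
  else 0

lemma pathFlow_anti (T : Finset (Sym2 V)) (x y a b : V) :
    pathFlow T x y a b = - pathFlow T x y b a := by
  classical
  unfold pathFlow
  rw [Sym2.eq_swap (a := b) (b := a)]
  split_ifs <;> ring

lemma isFlow_pathFlow {T H : Finset (Sym2 V)} (hT : IsForest T H)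
    (hH : ∀ f ∈ H, ¬ f.IsDiag) {x y : V} (he : s(x, y) ∈ H) :
    IsFlow H x y (pathFlow T x y) := by
  classical
  refine ⟨pathFlow_anti T x y, fun a b hab => ?_, fun a => ?_⟩
  · unfold pathFlow
    rw [if_neg (fun h => hab (hT.1 h))]
  obtain ⟨hTH, hac, hsp⟩ := hT
  have hxy : (gr T).Reachable x y := hsp x y he
  have hne' : ∀ {u v : V}, s(u, v) ∈ T → u ≠ v := fun {u v} h e => hH _ (hTH h) (by simp [e])
  -- `nb`: the neighbours of `a` in `T`
  set nb := (endpts H).filter (fun b => s(a, b) ∈ T) with hnb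
  have hmem : ∀ b, b ∈ nb ↔ s(a, b) ∈ T := fun b => by
    simp only [hnb, Finset.mem_filter, and_iff_right_iff_imp]
    exact fun h => mem_endpts_right (hTH h)
  have hsum : ∑ᶠ b, pathFlow T x y a b = ∑ b ∈ nb, pathFlow T x y a b := by
    refine finsum_eq_sum_of_support_subset _ fun b hb => ?_
    simp only [Function.mem_support] at hb
    rw [Finset.mem_coe, hmem]
    by_contra hc
    exact hb (by rw [pathFlow, if_neg hc])
  rw [hsum]
  by_cases hax : (gr T).Reachable a x
  · -- indicator of being on the far side of the edge `ab`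
    let R : V → V → Prop := fun b v => (gr (T.erase s(a, b))).Reachable v b
    have hcount : ∀ v, (gr T).Reachable a v →
        (∑ b ∈ nb, if R b v then (1 : ℝ) else 0) = if a = v then 0 else 1 := by
      intro v hv
      by_cases hav : a = v
      · rw [if_pos hav]
        refine Finset.sum_eq_zero fun b hb => if_neg ?_
        subst hav
        exact not_reach_erase hac ((hmem b).mp hb) (hne' ((hmem b).mp hb))
      · rw [if_neg hav]
        obtain ⟨p, hp⟩ := hv.exists_isPath
        cases p with
        | nil => exact absurd rfl hav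
        | @cons _ b _ hadj q =>
          rw [Walk.cons_isPath_iff] at hp
          have hbT : s(a, b) ∈ T := (gr_adj.mp hadj).1
          have havoid : ∀ c, (gr (T.erase s(a, c))).Reachable b v := by
            intro c
            rw [gr_erase]
            refine ⟨q.toDeleteEdge _ fun hmem' => hp.2 ?_⟩
            exact Walk.fst_mem_support_of_mem_edges _ hmem'
          rw [Finset.sum_eq_single b]
          · rw [if_pos]
            exact (havoid b).symm
          · intro c hc hcb
            rw [if_neg]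
            intro hR
            have hcT := (hmem c).mp hc
            refine not_reach_erase hac hcT (hne' hcT) ?_
            have h1 : (gr (T.erase s(a, c))).Adj a b := by
              rw [gr_adj]
              refine ⟨Finset.mem_erase.mpr ⟨?_, hbT⟩, hne' hbT⟩
              intro h
              exact hcb ((Sym2.congr_right).mp h).symm
            exact h1.reachable.trans ((havoid c).trans hR)
          · exact fun h => absurd ((hmem b).mpr hbT) h
    have hay : (gr T).Reachable a y := hax.trans hxy
    have hterm : ∀ b ∈ nb, pathFlow T x y a b =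
        (if R b y then (1 : ℝ) else 0) - (if R b x then (1 : ℝ) else 0) := by
      intro b hb
      have hbT := (hmem b).mp hb
      have hn := not_reach_erase hac hbT (hne' hbT)
      have side : ∀ v, (gr T).Reachable a v →
          ((gr (T.erase s(a, b))).Reachable v a ↔ ¬ (gr (T.erase s(a, b))).Reachable v b) := by
        intro v hv
        constructor
        · exact fun h1 h2 => hn (h1.symm.trans h2)
        · intro h1
          rcases (reach_split hbT).mp hv with h | ⟨_, h⟩ | ⟨_, h⟩
          · exact h.symm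
          · exact absurd h.symm h1
          · exact h.symm
      simp only [pathFlow, if_pos hbT, R]
      by_cases hbx : (gr (T.erase s(a, b))).Reachable x b <;>
        by_cases hby : (gr (T.erase s(a, b))).Reachable y b <;>
        simp [hbx, hby, (side x hax), (side y hay)]
    rw [Finset.sum_congr rfl hterm, Finset.sum_sub_distrib, hcount y hay, hcount x hax]
    split_ifs <;> ring
  · have hay : ¬ (gr T).Reachable a y := fun h => hax (h.trans hxy.symm)
    have h1 : a ≠ x := fun h => hax (h ▸ Reachable.refl _)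
    have h2 : a ≠ y := fun h => hay (h ▸ Reachable.refl _)
    rw [if_neg h1, if_neg h2, sub_zero]
    refine Finset.sum_eq_zero fun b hb => ?_
    have hle := gr_mono (Finset.erase_subset s(a, b) T)
    rw [pathFlow, if_pos ((hmem b).mp hb), if_neg, if_neg, sub_zero]
    · exact fun h => hay ((h.2.mono hle).symm)
    · exact fun h => hax ((h.1.mono hle).symm)

/-! ### Kirchhoff's formula -/

open scoped Classical in
/-- Edge sets separating `x` from `y` which become spanning forests when `xy` is added. -/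
noncomputable def sepForests (H : Finset (Sym2 V)) (x y : V) : Finset (Finset (Sym2 V)) :=
  H.powerset.filter (fun F => ¬ (gr F).Reachable x y ∧ IsForest (insert s(x, y) F) H)

open scoped Classical in
/-- The unnormalised potential. -/
noncomputable def pot (H : Finset (Sym2 V)) (w : Sym2 V → ℝ) (x y a : V) : ℝ :=
  ∑ F ∈ sepForests H x y, if (gr F).Reachable x a then wt w F else 0

lemma forest_exchange {T H : Finset (Sym2 V)} (hH : ∀ f ∈ H, ¬ f.IsDiag) {x y a b : V}
    (hT : IsForest T H) (he : s(x, y) ∈ H) (hf : s(a, b) ∈ T)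
    (hxa : (gr (T.erase s(a, b))).Reachable x a) (hyb : (gr (T.erase s(a, b))).Reachable y b) :
    T.erase s(a, b) ∈ sepForests H x y := by
  obtain ⟨hTH, hac, hsp⟩ := hT
  have hab : a ≠ b := fun h => hH _ (hTH hf) (by simp [h])
  have hn := not_reach_erase hac hf hab
  have hnxy : ¬ (gr (T.erase s(a, b))).Reachable x y := fun h =>
    hn (hxa.symm.trans (h.trans hyb))
  simp only [sepForests, Finset.mem_filter, Finset.mem_powerset]
  refine ⟨(Finset.erase_subset _ _).trans hTH, hnxy, ?_, ?_, ?_⟩
  · exact Finset.insert_subset he ((Finset.erase_subset _ _).trans hTH)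
  · rw [gr_insert]
    exact (hac.anti (gr_mono (Finset.erase_subset _ _))).sup_edge_of_not_reachable hnxy
  · intro u v huv
    rw [gr_insert, reachable_sup_edge]
    rcases (reach_split hf).mp (hsp u v huv) with h | ⟨h1, h2⟩ | ⟨h1, h2⟩
    · exact Or.inl h
    · exact Or.inr (Or.inl ⟨h1.trans hxa.symm, hyb.trans h2⟩)
    · exact Or.inr (Or.inr ⟨h1.trans hyb.symm, hxa.trans h2⟩)

lemma forest_exchange' {F H : Finset (Sym2 V)} {x y a b : V} (hF : F ∈ sepForests H x y)
    (hf : s(a, b) ∈ H) (hxa : (gr F).Reachable x a) (hyb : (gr F).Reachable y b) :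
    s(a, b) ∉ F ∧ IsForest (insert s(a, b) F) H ∧ ¬ (gr F).Reachable a b := by
  simp only [sepForests, Finset.mem_filter, Finset.mem_powerset] at hF
  obtain ⟨hFH, hnxy, hF'⟩ := hF
  have hn : ¬ (gr F).Reachable a b := fun h => hnxy (hxa.trans (h.trans hyb.symm))
  refine ⟨fun h => ?_, ⟨?_, ?_, ?_⟩, hn⟩
  · by_cases hab : a = b
    · exact hn (hab ▸ Reachable.refl _)
    · exact hn (Adj.reachable (gr_adj.mpr ⟨h, hab⟩))
  · exact Finset.insert_subset hf hFH
  · rw [gr_insert]
    exact (hF'.2.1.anti (gr_mono (Finset.subset_insert _ _))).sup_edge_of_not_reachable hn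
  · intro u v huv
    have h := hF'.2.2 u v huv
    rw [gr_insert, reachable_sup_edge] at h ⊢
    rcases h with h | ⟨h1, h2⟩ | ⟨h1, h2⟩
    · exact Or.inl h
    · exact Or.inr (Or.inl ⟨h1.trans hxa, hyb.symm.trans h2⟩)
    · exact Or.inr (Or.inr ⟨h1.trans hyb, hxa.symm.trans h2⟩)

open scoped Classical in
/-- Directed version of the forest/two-forest correspondence. -/
lemma sum_exchange {H : Finset (Sym2 V)} (hH : ∀ f ∈ H, ¬ f.IsDiag) (w : Sym2 V → ℝ)
    {x y a b : V} (he : s(x, y) ∈ H) (hf : s(a, b) ∈ H) :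
    (∑ T ∈ forests H, if s(a, b) ∈ T ∧ (gr (T.erase s(a, b))).Reachable x a ∧
        (gr (T.erase s(a, b))).Reachable y b then wt w T else 0) =
      Real.exp (w s(a, b)) *
        ∑ F ∈ sepForests H x y,
          if (gr F).Reachable x a ∧ (gr F).Reachable y b then wt w F else 0 := by
  rw [Finset.mul_sum, ← Finset.sum_filter]
  simp only [mul_ite, mul_zero]
  rw [← Finset.sum_filter]
  refine Finset.sum_nbij' (fun T => T.erase s(a, b)) (fun F => insert s(a, b) F) ?_ ?_ ?_ ?_ ?_
  · intro T hT
    simp only [Finset.mem_filter, mem_forests] at hT ⊢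
    exact ⟨forest_exchange hH hT.1 he hT.2.1 hT.2.2.1 hT.2.2.2, hT.2.2⟩
  · intro F hF
    simp only [Finset.mem_filter, mem_forests] at hF ⊢
    obtain ⟨h1, h2, _⟩ := forest_exchange' hF.1 hf hF.2.1 hF.2.2
    refine ⟨h2, Finset.mem_insert_self _ _, ?_⟩
    rw [Finset.erase_insert h1]
    exact hF.2
  · intro T hT
    simp only [Finset.mem_filter] at hT
    exact Finset.insert_erase hT.2.1
  · intro F hF
    simp only [Finset.mem_filter] at hF
    exact Finset.erase_insert (forest_exchange' hF.1 hf hF.2.1 hF.2.2).1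
  · intro T hT
    simp only [Finset.mem_filter] at hT
    rw [wt, wt, ← Real.exp_add, Finset.add_sum_erase _ _ hT.2.1]

/-- The averaged path flow. -/
noncomputable def current (H : Finset (Sym2 V)) (w : Sym2 V → ℝ) (x y a b : V) : ℝ :=
  ∑ T ∈ forests H, pT H w T * pathFlow T x y a b

omit [DecidableEq V] in
lemma sum_pT {H : Finset (Sym2 V)} (hH : ∀ f ∈ H, ¬ f.IsDiag) (w : Sym2 V → ℝ) :
    ∑ T ∈ forests H, pT H w T = 1 := by
  simp only [pT, ← Finset.sum_div]
  exact div_self (Zf_pos hH w).ne'

lemma isFlow_current {H : Finset (Sym2 V)} (hH : ∀ f ∈ H, ¬ f.IsDiag) (w : Sym2 V → ℝ)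
    {x y : V} (he : s(x, y) ∈ H) : IsFlow H x y (current H w x y) := by
  refine ⟨fun a b => ?_, fun a b hab => ?_, fun a => ?_⟩
  · simp only [current, ← Finset.sum_neg_distrib]
    exact Finset.sum_congr rfl fun T _ => by rw [pathFlow_anti T x y a b]; ring
  · exact Finset.sum_eq_zero fun T hT => by
      rw [(isFlow_pathFlow (mem_forests.mp hT) hH he).supp a b hab, mul_zero]
  · simp only [current]
    rw [finsum_eq_sum_of_support_subset _ (s := endpts H)]
    · rw [Finset.sum_comm]
      simp only [← Finset.mul_sum]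
      rw [Finset.sum_congr rfl fun T hT => by
        rw [(isFlow_pathFlow (mem_forests.mp hT) hH he).div_sum a], ← Finset.sum_mul,
        sum_pT hH w, one_mul]
    · intro b hb
      simp only [Function.mem_support] at hb
      by_contra hb'
      exact hb (Finset.sum_eq_zero fun T hT => by
        rw [(isFlow_pathFlow (mem_forests.mp hT) hH he).supp a b
          (fun h => hb' (mem_endpts_right h)), mul_zero])

lemma current_eq {H : Finset (Sym2 V)} (hH : ∀ f ∈ H, ¬ f.IsDiag) (w : Sym2 V → ℝ)
    {x y a b : V} (he : s(x, y) ∈ H) (hf : s(a, b) ∈ H) :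
    current H w x y a b =
      Real.exp (w s(a, b)) * ((pot H w x y a - pot H w x y b) / Zf H w) := by
  classical
  have key : ∀ F ∈ sepForests H x y,
      (if (gr F).Reachable x a then wt w F else 0) - (if (gr F).Reachable x b then wt w F else 0) =
      (if (gr F).Reachable x a ∧ (gr F).Reachable y b then wt w F else 0) -
      (if (gr F).Reachable x b ∧ (gr F).Reachable y a then wt w F else 0) := by
    intro F hF
    simp only [sepForests, Finset.mem_filter, Finset.mem_powerset] at hF
    obtain ⟨-, hnxy, hF'⟩ := hF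
    have h := hF'.2.2 a b hf
    rw [gr_insert, reachable_sup_edge] at h
    by_cases hxa : (gr F).Reachable x a <;> by_cases hxb : (gr F).Reachable x b
    · have h1 : ¬ (gr F).Reachable y b := fun h' => hnxy (hxb.trans h'.symm)
      have h2 : ¬ (gr F).Reachable y a := fun h' => hnxy (hxa.trans h'.symm)
      simp [hxa, hxb, h1, h2]
    · have h1 : (gr F).Reachable y b := by
        rcases h with h | ⟨_, h⟩ | ⟨h, _⟩
        · exact absurd (hxa.trans h) hxb
        · exact h
        · exact absurd (hxa.trans h) hnxy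
      simp [hxa, hxb, h1]
    · have h1 : (gr F).Reachable y a := by
        rcases h with h | ⟨_, h⟩ | ⟨h, _⟩
        · exact absurd (hxb.trans h.symm) hxa
        · exact absurd (hxb.trans h.symm) hnxy
        · exact h.symm
      simp [hxa, hxb, h1]
    · simp [hxa, hxb]
  have h2 : current H w x y a b * Zf H w =
      (∑ T ∈ forests H, if s(a, b) ∈ T ∧ (gr (T.erase s(a, b))).Reachable x a ∧
        (gr (T.erase s(a, b))).Reachable y b then wt w T else 0) -
      (∑ T ∈ forests H, if s(b, a) ∈ T ∧ (gr (T.erase s(b, a))).Reachable x b ∧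
        (gr (T.erase s(b, a))).Reachable y a then wt w T else 0) := by
    rw [current, Finset.sum_mul, ← Finset.sum_sub_distrib]
    refine Finset.sum_congr rfl fun T _ => ?_
    rw [pT, div_mul_eq_mul_div, div_mul_cancel₀ _ (Zf_pos hH w).ne',
      Sym2.eq_swap (a := b) (b := a), pathFlow]
    by_cases hT : s(a, b) ∈ T
    · simp only [hT, if_true, true_and]
      split_ifs <;> ring
    · simp [hT]
  rw [sum_exchange hH w he hf, sum_exchange hH w he (Sym2.eq_swap ▸ hf),
    Sym2.eq_swap (a := b) (b := a), ← mul_sub, ← Finset.sum_sub_distrib,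
    ← Finset.sum_congr rfl key, Finset.sum_sub_distrib] at h2
  rw [← mul_div_assoc, eq_div_iff (Zf_pos hH w).ne']
  exact h2

lemma current_self {H : Finset (Sym2 V)} (hH : ∀ f ∈ H, ¬ f.IsDiag) (w : Sym2 V → ℝ)
    {x y : V} (he : s(x, y) ∈ H) : current H w x y x y = prob H w s(x, y) := by
  classical
  rw [current, prob, Finset.sum_filter, Finset.sum_div]
  refine Finset.sum_congr rfl fun T hT => ?_
  by_cases h : s(x, y) ∈ T
  · have hxy : x ≠ y := fun e => hH _ he (by simp [e])
    have := not_reach_erase (mem_forests.mp hT).2.1 h hxy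
    simp [pathFlow, pT, h, this, Reachable.refl]
  · simp [pathFlow, pT, h]

/-- **Kirchhoff's formula** (Thomson form): `prob` is conductance times effective resistance. -/
theorem kirchhoff {H : Finset (Sym2 V)} (hH : ∀ f ∈ H, ¬ f.IsDiag) (w : Sym2 V → ℝ)
    {x y : V} (he : s(x, y) ∈ H) :
    energy H w (current H w x y) = prob H w s(x, y) / Real.exp (w s(x, y)) ∧
    ∀ θ, IsFlow H x y θ → prob H w s(x, y) / Real.exp (w s(x, y)) ≤ energy H w θ := by
  set I := current H w x y with hI
  set φ : V → ℝ := fun a => pot H w x y a / Zf H w with hφ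
  have hIf := isFlow_current hH w he
  have hcross : ∀ θ, IsFlow H x y θ →
      ∑ f ∈ H, dot θ I f * Real.exp (- w f) = φ x - φ y := by
    intro θ hθ
    rw [← hθ.sum_grad hH he φ]
    refine Finset.sum_congr rfl fun f hf => ?_
    induction f using Sym2.ind with
    | _ a b =>
      simp only [dot, Sym2.lift_mk, hI, hφ]
      rw [current_eq hH w he hf, current_eq hH w he (Sym2.eq_swap ▸ hf),
        Sym2.eq_swap (a := b) (b := a), Real.exp_neg]
      field_simp
  have hR : φ x - φ y = prob H w s(x, y) / Real.exp (w s(x, y)) := by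
    rw [eq_div_iff (Real.exp_pos _).ne', ← current_self hH w he, current_eq hH w he he, hφ]
    ring
  have hE : energy H w I = φ x - φ y := by
    rw [← hcross I hIf, energy]
    refine Finset.sum_congr rfl fun f _ => ?_
    induction f using Sym2.ind with
    | _ a b => simp only [sq, dot, Sym2.lift_mk]; ring
  refine ⟨hE.trans hR, fun θ hθ => ?_⟩
  have h0 : energy H w θ = energy H w I + energy H w (fun a b => θ a b - I a b) +
      2 * ∑ f ∈ H, dot I (fun a b => θ a b - I a b) f * Real.exp (- w f) := by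
    rw [← energy_add]
    congr 1
    ext a b
    ring
  have h1 : ∑ f ∈ H, dot I (fun a b => θ a b - I a b) f * Real.exp (- w f) = 0 := by
    have : ∑ f ∈ H, dot I (fun a b => θ a b - I a b) f * Real.exp (- w f) =
        ∑ f ∈ H, dot θ I f * Real.exp (- w f) - ∑ f ∈ H, dot I I f * Real.exp (- w f) := by
      rw [← Finset.sum_sub_distrib]
      refine Finset.sum_congr rfl fun f _ => ?_
      induction f using Sym2.ind with
      | _ a b => simp only [dot, Sym2.lift_mk]; ring
    rw [this, hcross θ hθ, hcross I hIf, sub_self]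
  rw [h0, h1, hE, hR]
  linarith [energy_nonneg H w (fun a b => θ a b - I a b)]

end Vale.Agent.P143
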