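import Vale.Agent.P143.Noise
import Vale.Agent.P143.Defs
import Mathlib.Combinatorics.SimpleGraph.Connectivity.Subgraph
import Mathlib.Combinatorics.SimpleGraph.Cayley

/-!
# The free uniform spanning forest is a factor of i.i.d.
-/

namespace Vale.Agent.P143

open SimpleGraph Finset Filter Topology unitInterval MeasureTheory
open scoped ENNReal

variable {V : Type*} [DecidableEq V]

lemma marg_congr {G : SimpleGraph V} {y y' : Sym2 V → ℝ} (h : ∀ f ∈ G.edgeSet, y f = y' f)
    (e : Sym2 V) : marg G y e = marg G y' e := by
  classical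
  unfold marg
  refine iInf_congr fun H => ?_
  by_cases hH : ↑H ⊆ G.edgeSet ∧ e ∈ H
  · rw [if_pos hH, if_pos hH]
    exact prob_congr (fun f hf => h f (hH.1 hf)) e
  · rw [if_neg hH, if_neg hH]

lemma state_congr {G : SimpleGraph V} {lt : Sym2 V → Sym2 V → Prop} {u u' : Sym2 V × ℕ → I}
    (h : ∀ f ∈ G.edgeSet, ∀ k, u (f, k) = u' (f, k)) (k : ℕ) :
    ∀ e ∈ G.edgeSet, state G lt u k e = state G lt u' k e := by
  classical
  induction k with
  | zero => intro e _; simp only [state]
  | succ k ih =>
    intro e he
    have hj : ∀ j, ∀ f ∈ G.edgeSet,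
        roundIter G lt (fun g => u (g, k)) (state G lt u k) j f =
          roundIter G lt (fun g => u' (g, k)) (state G lt u' k) j f := by
      intro j
      induction j with
      | zero => intro f _; simp only [roundIter]
      | succ j ihj =>
        intro f hf
        have hb : ∀ g ∈ G.edgeSet,
            bump lt (state G lt u k) (roundIter G lt (fun g => u (g, k)) (state G lt u k) j) f g =
            bump lt (state G lt u' k) (roundIter G lt (fun g => u' (g, k)) (state G lt u' k) j) f g :=
          fun g hg => by simp only [bump, ih g hg, ihj g hg]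
        simp only [roundIter, roundMap]
        rw [h f hf k, marg_congr hb f]
    have hfix : roundFix G lt (fun g => u (g, k)) (state G lt u k) e =
        roundFix G lt (fun g => u' (g, k)) (state G lt u' k) e := by
      simp only [roundFix, funext fun j => hj j e he]
    simp only [state]
    rw [ih e he, hfix]

/-- The sampler built from vertex labels. -/
noncomputable def samp (G : SimpleGraph V) (U : V → I) (k : ℕ) : Sym2 V → ℝ :=
  state G (edgeLt (labA U)) (noiseOf G (labA U) (labB U)) k

/-- The factor: edges whose total tilt is eventually positive. -/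
noncomputable def Phi (G : SimpleGraph V) (U : V → I) (e : Sym2 V) : Prop :=
  e ∈ G.edgeSet ∧ ∀ᶠ k in atTop, 0 < samp G U k e

/-! ### Invariance and measurability -/

lemma phi_map {W : Type*} [DecidableEq W] (π : V ≃ W) (G : SimpleGraph V) (G' : SimpleGraph W)
    (hG : ∀ f, edgeEquiv π f ∈ G'.edgeSet ↔ f ∈ G.edgeSet) (U : V → I) (e : Sym2 V) :
    Phi G' (U ∘ π.symm) (Sym2.map π e) ↔ Phi G U e := by
  change Phi G' (U ∘ π.symm) (edgeEquiv π e) ↔ _
  have hA : labA (U ∘ π.symm) ∘ π = labA U := by funext v; simp [labA]
  have hlt : ∀ f g, edgeLt (labA (U ∘ π.symm)) (edgeEquiv π f) (edgeEquiv π g) ↔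
      edgeLt (labA U) f g := fun f g => by simp only [edgeLt, edgeKey_map, hA]
  have hadj : ∀ x y, G'.Adj (π x) (π y) ↔ G.Adj x y := fun x y => hG s(x, y)
  have hrank : ∀ x y, rank G' (labA (U ∘ π.symm)) (π x) (π y) = rank G (labA U) x y := by
    intro x y
    have hset : {z | G'.Adj (π x) z ∧ (labA (U ∘ π.symm) z : ℝ) < labA (U ∘ π.symm) (π y)} =
        π '' {z | G.Adj x z ∧ (labA U z : ℝ) < labA U y} := by
      ext z
      obtain ⟨z, rfl⟩ := π.surjective z
      simp [labA, hadj]
    unfold rank
    rw [hset, Set.ncard_image_of_injective _ π.injective]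
  have hu : ∀ f k, noiseOf G' (labA (U ∘ π.symm)) (labB (U ∘ π.symm)) (edgeEquiv π f, k) =
      noiseOf G (labA U) (labB U) (f, k) := by
    intro f k
    induction f using Sym2.ind with
    | _ x y =>
      have h1 : ∀ z, labA (U ∘ π.symm) (π z) = labA U z := fun z => by simp [labA]
      simp only [noiseOf, edgeEquiv, Equiv.coe_fn_mk, Sym2.map_mk, Sym2.lift_mk, slot, hrank, h1,
        labB, Function.comp_apply, Equiv.symm_apply_apply]
  unfold Phi samp
  simp only [state_map π hG hlt hu, hG e]

omit [DecidableEq V] in
lemma measurable_ncard [Countable V] {Ω : Type*} [MeasurableSpace Ω] (p : Ω → V → Prop)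
    (hp : ∀ z, MeasurableSet {ω | p ω z}) : Measurable fun ω => Set.ncard {z | p ω z} := by
  have h : Measurable fun ω => Set.encard {z | p ω z} := by
    have he : ∀ ω, (Set.encard {z | p ω z}) = Set.encard {z | p ω z} := fun _ => rfl
    refine measurable_to_countable' fun n => ?_
    induction n using ENat.recTopCoe with
    | top =>
      have : (fun ω => Set.encard {z | p ω z}) ⁻¹' {⊤} =
          ⋂ F : Finset V, {ω | ∃ z, z ∉ F ∧ p ω z} := by
        ext ω
        simp only [Set.mem_preimage, Set.mem_singleton_iff, Set.encard_eq_top_iff, Set.mem_iInter,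
          Set.mem_setOf_eq]
        constructor
        · intro hinf F
          obtain ⟨z, hz, hzF⟩ := hinf.exists_notMem_finset F
          exact ⟨z, hzF, hz⟩
        · intro hall hfin
          obtain ⟨z, hz, hzp⟩ := hall hfin.toFinset
          exact hz (hfin.mem_toFinset.mpr hzp)
      rw [this]
      refine MeasurableSet.iInter fun F => ?_
      have : {ω | ∃ z, z ∉ F ∧ p ω z} = ⋃ z : {z // z ∉ F}, {ω | p ω z.1} := by
        ext ω; simp
      rw [this]
      exact MeasurableSet.iUnion fun z => hp z.1
    | coe n =>
      have : (fun ω => Set.encard {z | p ω z}) ⁻¹' {(n : ℕ∞)} =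
          ⋃ F : {F : Finset V // F.card = n}, ⋂ z, {ω | p ω z ↔ z ∈ F.1} := by
        ext ω
        simp only [Set.mem_preimage, Set.mem_singleton_iff, Set.mem_iUnion, Set.mem_iInter,
          Set.mem_setOf_eq]
        constructor
        · intro hn
          have hfin : {z | p ω z}.Finite := Set.finite_of_encard_eq_coe hn
          refine ⟨⟨hfin.toFinset, ?_⟩, fun z => hfin.mem_toFinset.symm⟩
          exact Nat.cast_injective (R := ℕ∞) (by
            rw [← Set.encard_coe_eq_coe_finsetCard, hfin.coe_toFinset, hn])
        · rintro ⟨⟨F, hF⟩, hmem⟩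
          rw [show {z | p ω z} = ↑F from Set.ext hmem, Set.encard_coe_eq_coe_finsetCard, hF]
      rw [this]
      refine MeasurableSet.iUnion fun F => MeasurableSet.iInter fun z => ?_
      by_cases hz : z ∈ F.1
      · simpa [hz] using hp z
      · simp only [hz, iff_false]
        exact (hp z).compl
  exact (measurable_from_top (f := ENat.toNat)).comp h

lemma measurable_samp [Countable V] {Ω : Type*} [MeasurableSpace Ω] {A : Ω → V → V → Prop}
    (hA : ∀ a b, Measurable fun ω => A ω a b) {U : Ω → V → I} (hU : Measurable U)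
    (k : ℕ) (e : Sym2 V) :
    Measurable fun ω => samp (SimpleGraph.fromRel (A ω)) (U ω) k e := by
  have ha : ∀ x, Measurable fun ω => (labA (U ω) x : ℝ) := fun x =>
    measurable_subtype_coe.comp ((measurable_pi_apply x).comp (measurable_labA.comp hU))
  refine measurable_state hA (fun f g => ?_) (fun p => ?_) k e
  · induction f using Sym2.ind with
    | _ x y =>
      induction g using Sym2.ind with
      | _ z w =>
        simp only [edgeLt, edgeKey, Sym2.lift_mk, Prod.Lex.toLex_lt_toLex]
        refine measurableSet_setOfPred.mp ?_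
        exact (measurableSet_lt ((ha x).max (ha y)) ((ha z).max (ha w))).union
          ((measurableSet_eq_fun ((ha x).max (ha y)) ((ha z).max (ha w))).inter
            (measurableSet_lt ((ha x).min (ha y)) ((ha z).min (ha w))))
  · obtain ⟨f, i⟩ := p
    induction f using Sym2.ind with
    | _ x y =>
      classical
      simp only [noiseOf, Sym2.lift_mk]
      have hb : ∀ x y, Measurable fun ω =>
          labB (U ω) (slot (SimpleGraph.fromRel (A ω)) (labA (U ω)) x y i) := by
        intro x y
        have hr : Measurable fun ω => rank (SimpleGraph.fromRel (A ω)) (labA (U ω)) x y := by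
          refine measurable_ncard _ fun z => ?_
          refine MeasurableSet.inter ?_ (measurableSet_lt (ha z) (ha y))
          exact measurableSet_mem_edgeSet hA s(x, z)
        have h1 : Measurable fun q : ℕ × (V × ℕ → I) => q.2 (x, 2 * Nat.pair q.1 i) :=
          measurable_from_prod_countable_right fun r => by
            exact measurable_pi_apply (x, 2 * Nat.pair r i)
        exact h1.comp (hr.prodMk (measurable_labB.comp hU))
      exact Measurable.ite (measurableSet_lt (ha x) (ha y)) (hb x y)
        (Measurable.ite (measurableSet_lt (ha y) (ha x)) (hb y x) measurable_const)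

lemma measurable_phi [Countable V] {Ω : Type*} [MeasurableSpace Ω] {A : Ω → V → V → Prop}
    (hA : ∀ a b, Measurable fun ω => A ω a b) {U : Ω → V → I} (hU : Measurable U) (e : Sym2 V) :
    Measurable fun ω => Phi (SimpleGraph.fromRel (A ω)) (U ω) e := by
  refine measurableSet_setOfPred.mp ?_
  have h : {ω | Phi (SimpleGraph.fromRel (A ω)) (U ω) e} =
      {ω | e ∈ (SimpleGraph.fromRel (A ω)).edgeSet} ∩
        ⋃ N : ℕ, ⋂ k : ℕ, {ω | N ≤ k → 0 < samp (SimpleGraph.fromRel (A ω)) (U ω) k e} := by
    ext ω
    simp [Phi, eventually_atTop]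
  rw [h]
  refine (measurableSet_mem_edgeSet hA e).inter
    (MeasurableSet.iUnion fun N => MeasurableSet.iInter fun k => ?_)
  by_cases hk : N ≤ k
  · simpa [hk] using measurableSet_lt measurable_const (measurable_samp hA hU k e)
  · simp [hk]

omit [DecidableEq V] in
lemma fromRel_adj_self (G : SimpleGraph V) : SimpleGraph.fromRel G.Adj = G := by
  ext a b
  simp only [SimpleGraph.fromRel_adj]
  exact ⟨fun h => h.2.elim id fun h' => h'.symm, fun h => ⟨h.ne, Or.inl h⟩⟩

lemma measurable_samp' [Countable V] (G : SimpleGraph V) (k : ℕ) (e : Sym2 V) :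
    Measurable fun U : V → I => samp G U k e := by
  have := measurable_samp (Ω := V → I) (A := fun _ => G.Adj) (fun _ _ => measurable_const)
    measurable_id k e
  simpa [fromRel_adj_self] using this

lemma measurable_phi' [Countable V] (G : SimpleGraph V) (e : Sym2 V) :
    Measurable fun U : V → I => Phi G U e := by
  have := measurable_phi (Ω := V → I) (A := fun _ => G.Adj) (fun _ _ => measurable_const)
    measurable_id e
  simpa [fromRel_adj_self] using this

/-! ### Finite volume bound -/

/-- The finite-volume sampler with the noise of `G`. -/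
noncomputable def sampF (G : SimpleGraph V) (H : Finset (Sym2 V)) (U : V → I) (k : ℕ) :
    Sym2 V → ℝ :=
  state (gr H) (edgeLt (labA U)) (noiseOf G (labA U) (labB U)) k

theorem sampF_bound [Countable V] {G : SimpleGraph V} (hlf : ∀ v, (G.neighborSet v).Finite)
    {H : Finset (Sym2 V)} (hsub : ↑H ⊆ G.edgeSet) (k : ℕ)
    {E : Finset (Sym2 V)} (hE : E ⊆ H) {P : Set (Sym2 V → ℝ)} (hP : MeasurableSet P)
    (hPcongr : ∀ y y' : Sym2 V → ℝ, (∀ f ∈ E, y f = y' f) → y ∈ P → y' ∈ P)
    (χ : Finset (Sym2 V) → ℝ≥0∞) (c : ℝ≥0∞)
    (hbd : ∀ T, ∀ y ∈ P, (1 : ℝ≥0∞) ≤ χ T + c * ∑ e ∈ E, errF T e y) :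
    unifPi V {U | sampF G H U k ∈ P} ≤
      (∑ T ∈ forests H, ENNReal.ofReal (pT H (fun _ => 0) T) * χ T) +
        c * (E.card * beta ^ k) := by
  classical
  have hH := not_diag_of_subset hsub
  set S : Set ((V → I) × (V × ℕ → I)) :=
    {q | state (gr H) (edgeLt q.1) (noiseOf G q.1 q.2) k ∈ P} with hS
  have hSm : MeasurableSet S := by
    have hU : ∀ p, Measurable fun q : (V → I) × (V × ℕ → I) => noiseOf G q.1 q.2 p := by
      rintro ⟨f, i⟩
      have ha : ∀ x, Measurable fun q : (V → I) × (V × ℕ → I) => (q.1 x : ℝ) := fun x =>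
        measurable_subtype_coe.comp ((measurable_pi_apply x).comp measurable_fst)
      induction f using Sym2.ind with
      | _ x y =>
        simp only [noiseOf, Sym2.lift_mk]
        have hb : ∀ x y, Measurable fun q : (V → I) × (V × ℕ → I) =>
            q.2 (slot G q.1 x y i) := by
          intro x y
          have hr : Measurable fun q : (V → I) × (V × ℕ → I) => rank G q.1 x y := by
            refine measurable_ncard _ fun z => ?_
            exact (MeasurableSet.const _).inter (measurableSet_lt (ha z) (ha y))
          have h1 : Measurable fun r : ℕ × (V × ℕ → I) => r.2 (x, 2 * Nat.pair r.1 i) :=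
            measurable_from_prod_countable_right fun r => by
            exact measurable_pi_apply (x, 2 * Nat.pair r i)
          exact h1.comp (hr.prodMk measurable_snd)
        exact Measurable.ite (measurableSet_lt (ha x) (ha y)) (hb x y)
          (Measurable.ite (measurableSet_lt (ha y) (ha x)) (hb y x) measurable_const)
    have hlt : ∀ f g, Measurable fun q : (V → I) × (V × ℕ → I) => edgeLt q.1 f g := by
      intro f g
      have ha : ∀ x, Measurable fun q : (V → I) × (V × ℕ → I) => (q.1 x : ℝ) := fun x =>
        measurable_subtype_coe.comp ((measurable_pi_apply x).comp measurable_fst)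
      induction f using Sym2.ind with
      | _ x y =>
        induction g using Sym2.ind with
        | _ z w =>
          simp only [edgeLt, edgeKey, Sym2.lift_mk, Prod.Lex.toLex_lt_toLex]
          refine measurableSet_setOfPred.mp ?_
          exact (measurableSet_lt ((ha x).max (ha y)) ((ha z).max (ha w))).union
            ((measurableSet_eq_fun ((ha x).max (ha y)) ((ha z).max (ha w))).inter
              (measurableSet_lt ((ha x).min (ha y)) ((ha z).min (ha w))))
    have hm : Measurable fun q : (V → I) × (V × ℕ → I) =>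
        state (gr H) (edgeLt q.1) (noiseOf G q.1 q.2) k := by
      refine measurable_pi_lambda _ fun e => ?_
      have := measurable_state (A := fun _ : (V → I) × (V × ℕ → I) => (gr H).Adj)
        (fun _ _ => measurable_const) hlt hU k e
      simpa [fromRel_adj_self] using this
    exact hm hP
  have hlab : Measurable fun U : V → I => (labA U, labB U) :=
    measurable_labA.prodMk measurable_labB
  have hpre : unifPi V {U | sampF G H U k ∈ P} = ((unifPi V).prod (unifPi (V × ℕ))) S := by
    rw [← map_labels, Measure.map_apply hlab hSm]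
    rfl
  rw [hpre, Measure.prod_apply hSm]
  set B := (∑ T ∈ forests H, ENNReal.ofReal (pT H (fun _ => 0) T) * χ T) +
    c * (E.card * beta ^ k) with hB
  calc ∫⁻ a, unifPi (V × ℕ) (Prod.mk a ⁻¹' S) ∂(unifPi V) ≤ ∫⁻ _a, B ∂(unifPi V) := by
        refine lintegral_mono_ae ?_
        filter_upwards [ae_injective] with a ha
        obtain ⟨j, hj, hjn⟩ := exists_reindex hlf ha
        set S' : Set (Sym2 V × ℕ → I) := {ω | state (gr H) (edgeLt a) ω k ∈ P} with hS'
        have hS'm : MeasurableSet S' := by
          have hm : Measurable fun ω : Sym2 V × ℕ → I => state (gr H) (edgeLt a) ω k := by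
            refine measurable_pi_lambda _ fun e => ?_
            have := measurable_state (A := fun _ : Sym2 V × ℕ → I => (gr H).Adj)
              (fun _ _ => measurable_const) (R := fun _ => edgeLt a) (fun _ _ => measurable_const)
              (U := fun ω => ω) (fun p => measurable_pi_apply p) k e
            simpa [fromRel_adj_self] using this
          exact hm hP
        have hrw : Prod.mk a ⁻¹' S = (fun b p => b (j p)) ⁻¹' S' := by
          ext b
          have hc := state_congr (G := gr H) (lt := edgeLt a) (u := noiseOf G a b)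
            (u' := fun p => b (j p)) (fun f hf i => hjn b (f, i)
              (hsub (by rw [gr_edgeSet hH] at hf; exact hf))) k
          have hc' : ∀ f ∈ E, _ = _ := fun f hf =>
            hc f (by rw [gr_edgeSet hH]; exact Finset.mem_coe.mpr (hE hf))
          exact ⟨hPcongr _ _ hc', hPcongr _ _ fun f hf => (hc' f hf).symm⟩
        rw [hrw, ← Measure.map_apply (by fun_prop) hS'm, map_comp_injective hj]
        exact finite_bound hH (edgeKey a) (edgeKey_injOn ha).injOn k hE hP hPcongr χ c hbd
    _ = B := by simp

/-! ### Spanning trees -/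

omit [DecidableEq V] in
lemma gr_eq (T : Finset (Sym2 V)) : SimpleGraph.fromEdgeSet (↑T : Set (Sym2 V)) = gr T := rfl

omit [DecidableEq V] in
lemma isSpanningTree_iff {G : SimpleGraph V} {K : G.Subgraph} (hconn : K.Connected)
    {H : Finset (Sym2 V)} (hH : ↑H = K.edgeSet) {T : Finset (Sym2 V)} :
    IsSpanningTree K T ↔ IsForest T H := by
  have hsubset : ↑T ⊆ K.edgeSet ↔ T ⊆ H := by rw [← hH, Finset.coe_subset]
  unfold IsSpanningTree IsForest
  rw [hsubset, gr_eq]
  refine and_congr_right fun _ => and_congr_right fun _ => ?_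
  constructor
  · intro h a b hab
    have hab' : K.Adj a b := by
      have : s(a, b) ∈ K.edgeSet := hH ▸ hab
      exact this
    exact h a (K.edge_vert hab') b (K.edge_vert (K.adj_symm hab'))
  · intro h a ha b hb
    have key : ∀ (p q : K.verts), K.coe.Walk p q → (gr T).Reachable p.1 q.1 := by
      intro p q w
      induction w with
      | nil => exact Reachable.refl _
      | @cons p r q hadj w ih =>
        refine (h p.1 r.1 ?_).trans ih
        have : s(p.1, r.1) ∈ K.edgeSet := hadj
        rw [← hH] at this
        exact this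
    obtain ⟨w⟩ := hconn.coe.preconnected ⟨a, ha⟩ ⟨b, hb⟩
    exact key _ _ w

/-- Probability of a pattern under the uniform spanning forest of `H`. -/
noncomputable def patP (H F S : Finset (Sym2 V)) : ℝ :=
  ∑ T ∈ forests H, if ∀ e ∈ F, (e ∈ T ↔ e ∈ S) then pT H (fun _ => 0) T else 0

lemma ustProb_eq {G : SimpleGraph V} {K : G.Subgraph} (hconn : K.Connected)
    {H : Finset (Sym2 V)} (hH : ↑H = K.edgeSet) (F S : Finset (Sym2 V)) :
    ustProb K F S = patP H F S := by
  have h1 : Nat.card {T : Finset (Sym2 V) // IsSpanningTree K T} = (forests H).card := by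
    rw [← Nat.card_eq_finsetCard]
    exact Nat.card_congr (Equiv.subtypeEquivRight fun T =>
      (isSpanningTree_iff hconn hH).trans mem_forests.symm)
  have h2 : Nat.card {T : Finset (Sym2 V) // IsSpanningTree K T ∧ ∀ e ∈ F, (e ∈ T ↔ e ∈ S)} =
      ((forests H).filter fun T => ∀ e ∈ F, (e ∈ T ↔ e ∈ S)).card := by
    rw [← Nat.card_eq_finsetCard]
    exact Nat.card_congr (Equiv.subtypeEquivRight fun T => by
      rw [Finset.mem_filter, mem_forests, isSpanningTree_iff hconn hH])
  rw [ustProb, h1, h2, patP, ← Finset.sum_filter]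
  clear h1 h2
  have hw : ∀ T : Finset (Sym2 V), wt (fun _ => 0) T = 1 := fun T => by simp [wt]
  simp only [pT, Zf, hw, Finset.sum_const, nsmul_eq_mul, mul_one, one_div]
  rw [div_eq_mul_inv]

/-! ### The limit -/

/-- Error bound constant. -/
noncomputable def errC : ℝ≥0∞ := ENNReal.ofReal (Real.exp (1 / 2))

lemma one_le_errC_mul (T : Finset (Sym2 V)) (e : Sym2 V) {y : Sym2 V → ℝ} (hy : |y e| < 1) :
    (1 : ℝ≥0∞) ≤ errC * errF T e y := by
  rw [errC, errF, ← ENNReal.ofReal_mul (Real.exp_pos _).le, ← Real.exp_add]
  refine ENNReal.one_le_ofReal.mpr (Real.one_le_exp ?_)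
  obtain ⟨h1, h2⟩ := abs_lt.mp hy
  split_ifs <;> linarith

lemma one_le_errF {T : Finset (Sym2 V)} {e : Sym2 V} {y : Sym2 V → ℝ}
    (h : ¬ (0 < y e ↔ e ∈ T)) : (1 : ℝ≥0∞) ≤ errF T e y := by
  rw [errF]
  refine ENNReal.one_le_ofReal.mpr (Real.one_le_exp ?_)
  by_cases he : e ∈ T
  · simp only [he, if_true, iff_true, not_lt] at h ⊢
    linarith
  · simp only [he, if_false, iff_false, not_not] at h ⊢
    linarith

theorem phi_hasLimit [Countable V] {G : SimpleGraph V} (hlf : ∀ v, (G.neighborSet v).Finite)
    {H : ℕ → Finset (Sym2 V)} (hsub : ∀ n, ↑(H n) ⊆ G.edgeSet)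
    (hex : ∀ f ∈ G.edgeSet, ∀ᶠ n in atTop, f ∈ H n) (F S : Finset (Sym2 V))
    (hF : ↑F ⊆ G.edgeSet) :
    Tendsto (fun n => patP (H n) F S) atTop
      (𝓝 ((unifPi V).real {U | ∀ e ∈ F, (Phi G U e ↔ e ∈ S)})) := by
  classical
  set μ := unifPi V with hμ
  haveI : IsProbabilityMeasure μ := by rw [hμ]; infer_instance
  set Z := {U : V → I | ∀ e ∈ F, (Phi G U e ↔ e ∈ S)} with hZ
  set b := beta.toReal with hb
  have hbtop : beta ≠ ⊤ := ne_top_of_le_ne_top ENNReal.one_ne_top beta_lt_one.le
  have hb0 : 0 ≤ b := ENNReal.toReal_nonneg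
  have hb1 : b < 1 := by
    rw [hb, ← ENNReal.toReal_one]
    exact ENNReal.toReal_strict_mono ENNReal.one_ne_top beta_lt_one
  set C := Real.exp (1 / 2) with hC
  have hC0 : 0 < C := Real.exp_pos _
  have hconv : ∀ (U : V → I) k, ∀ e ∈ G.edgeSet,
      Tendsto (fun n => sampF G (H n) U k e) atTop (𝓝 (samp G U k e)) := fun U k e he =>
    state_tendsto hsub hex _ k e he
  have hevF : ∀ᶠ n in atTop, F ⊆ H n := by
    have : ∀ᶠ n in atTop, ∀ f ∈ F, f ∈ H n :=
      (Finset.eventually_all F).mpr fun f hf => hex f (hF hf)
    exact this.mono fun n hn f hf => hn f hf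
  -- small tilts are unlikely
  have hQ : ∀ e ∈ G.edgeSet, ∀ k, μ.real {U | |samp G U k e| < 1} ≤ C * b ^ k := by
    intro e he k
    have hbdn : ∀ n, e ∈ H n → μ {U | |sampF G (H n) U k e| < 1} ≤ errC * beta ^ k := by
      intro n hn
      have h := sampF_bound hlf (hsub n) k (E := {e}) (by simpa using hn)
        (P := {y | |y e| < 1}) ((measurableSet_lt ((continuous_abs.measurable).comp (measurable_pi_apply e)) measurable_const))
        (fun y y' h hy => by
          have := h e (Finset.mem_singleton_self e)
          simpa [← this] using hy) (fun _ => 0) errC (fun T y hy => by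
            rw [zero_add, Finset.sum_singleton]
            exact one_le_errC_mul T e hy)
      simpa using h
    have hsubU : {U | |samp G U k e| < 1} ⊆
        ⋃ N : ℕ, {U | ∀ n, N ≤ n → e ∈ H n ∧ |sampF G (H n) U k e| < 1} := by
      intro U hU
      have := ((hconv U k e he).abs.eventually (eventually_lt_nhds hU))
      obtain ⟨N, hN⟩ := eventually_atTop.mp ((hex e he).and this)
      exact Set.mem_iUnion.mpr ⟨N, hN⟩
    have h := (measure_mono hsubU).trans (le_of_eq (Monotone.measure_iUnion (μ := μ)
      (s := fun N : ℕ => {U | ∀ n, N ≤ n → e ∈ H n ∧ |sampF G (H n) U k e| < 1})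
      (fun N M hNM U hU n hn => hU n (hNM.trans hn))))
    have h2 : (⨆ N : ℕ, μ {U | ∀ n, N ≤ n → e ∈ H n ∧ |sampF G (H n) U k e| < 1}) ≤
        errC * beta ^ k := by
      refine iSup_le fun N => ?_
      obtain ⟨n, hn, hn'⟩ := ((hex e he).and (eventually_ge_atTop N)).exists
      exact (measure_mono fun U hU => (hU n hn').2).trans (hbdn n hn)
    have := ENNReal.toReal_mono (ENNReal.mul_ne_top ENNReal.ofReal_ne_top
      (ENNReal.pow_ne_top hbtop)) (h.trans h2)
    simpa [Measure.real, errC, hC, hb, (Real.exp_pos _).le] using this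
  -- decisions stabilise
  have hgeom : Tendsto (fun k : ℕ => (C * F.card / (1 - b) + C * F.card) * b ^ k) atTop (𝓝 0) := by
    simpa using (tendsto_pow_atTop_nhds_zero_of_lt_one hb0 hb1).const_mul
      (C * F.card / (1 - b) + C * F.card)
  rw [Metric.tendsto_atTop]
  intro ε hε
  obtain ⟨k, hk⟩ := (hgeom.eventually (eventually_lt_nhds (show (0 : ℝ) < ε / 4 by positivity))).exists
  set τ := (C * F.card / (1 - b) + C * F.card) * b ^ k with hτ
  set W := {U : V → I | ∀ e ∈ F, (0 < samp G U k e ↔ e ∈ S)} with hW
  have hτ1 : (C * F.card / (1 - b)) * b ^ k ≤ τ := by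
    rw [hτ]; nlinarith [pow_nonneg hb0 k, mul_nonneg hC0.le (Nat.cast_nonneg (α := ℝ) F.card)]
  have hτ2 : (C * F.card) * b ^ k ≤ τ := by
    rw [hτ]
    nlinarith [pow_nonneg hb0 k, div_nonneg (mul_nonneg hC0.le (Nat.cast_nonneg (α := ℝ) F.card))
      (show (0 : ℝ) ≤ 1 - b by linarith)]
  -- (1) eventual decisions versus decisions at round `k`
  set Tail : ℕ → Set (V → I) := fun m => ⋃ i ∈ Finset.range m, ⋃ e ∈ F, {U | |samp G U (k + i) e| < 1}
    with hTail
  have htail : μ.real (⋃ m, Tail m) ≤ τ := by
    have hm : ∀ m, μ.real (Tail m) ≤ (C * F.card / (1 - b)) * b ^ k := by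
      intro m
      refine (measureReal_biUnion_finset_le _ _).trans ?_
      have : ∀ i ∈ Finset.range m, μ.real (⋃ e ∈ F, {U | |samp G U (k + i) e| < 1}) ≤
          (C * F.card * b ^ k) * b ^ i := by
        intro i _
        refine (measureReal_biUnion_finset_le _ _).trans ?_
        refine (Finset.sum_le_sum fun e he => hQ e (hF he) (k + i)).trans (le_of_eq ?_)
        rw [Finset.sum_const, nsmul_eq_mul, pow_add]
        ring
      refine (Finset.sum_le_sum this).trans ?_
      rw [← Finset.mul_sum]
      have hgs : ∑ i ∈ Finset.range m, b ^ i ≤ 1 / (1 - b) := by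
        rw [le_div_iff₀ (by linarith)]
        rw [geom_sum_mul_neg]
        linarith [pow_nonneg hb0 m]
      calc _ ≤ (C * F.card * b ^ k) * (1 / (1 - b)) := by
            refine mul_le_mul_of_nonneg_left hgs ?_
            positivity
        _ = _ := by ring
    have hmono : Monotone Tail := fun m m' hmm => Set.biUnion_subset_biUnion_left
      (by exact fun i hi => Finset.mem_range.mpr ((Finset.mem_range.mp hi).trans_le hmm))
    have := tendsto_measure_iUnion_atTop (μ := μ) hmono
    refine le_trans (le_of_tendsto ((ENNReal.tendsto_toReal (measure_ne_top _ _)).comp this)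
      (Eventually.of_forall hm)) hτ1
  have hstab : ∀ U, U ∉ (⋃ m, Tail m) → (U ∈ Z ↔ U ∈ W) := by
    intro U hU
    simp only [hTail, Set.mem_iUnion, Finset.mem_range, not_exists, Set.mem_setOf_eq] at hU
    have : ∀ e ∈ F, (Phi G U e ↔ 0 < samp G U k e) := by
      intro e he
      have hst : ∀ i, (0 < samp G U (k + i) e ↔ 0 < samp G U k e) := by
        intro i
        induction i with
        | zero => rfl
        | succ i ih =>
          rw [← ih]
          have h1 : ¬ |samp G U (k + i) e| < 1 := fun h => hU (i + 1) i (Nat.lt_succ_self i) e he h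
          have h2 : |samp G U (k + i + 1) e - samp G U (k + i) e| < 1 := state_step _ e
          rw [show k + (i + 1) = k + i + 1 by ring]
          obtain ⟨h2a, h2b⟩ := abs_lt.mp h2
          rcases le_or_gt 0 (samp G U (k + i) e) with h | h
          · rw [abs_of_nonneg h, not_lt] at h1
            constructor <;> intro <;> linarith
          · rw [abs_of_neg h, not_lt] at h1
            constructor <;> intro <;> linarith
      constructor
      · rintro ⟨-, hev⟩
        obtain ⟨m, hm⟩ := eventually_atTop.mp hev
        exact (hst m).mp (hm _ (Nat.le_add_left m k))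
      · intro h
        refine ⟨hF he, eventually_atTop.mpr ⟨k, fun m hm => ?_⟩⟩
        obtain ⟨i, rfl⟩ := Nat.exists_eq_add_of_le hm
        exact (hst i).mpr h
    simp only [hZ, hW, Set.mem_setOf_eq]
    exact forall₂_congr fun e he => by rw [this e he]
  -- (2) round `k` in infinite versus finite volume
  set Bad : ℕ → Set (V → I) :=
    fun n => {U | ¬ ∀ e ∈ F, (0 < sampF G (H n) U k e ↔ 0 < samp G U k e)} with hBad
  have hsF : ∀ n e, Measurable fun U => sampF G (H n) U k e := by
    intro n e
    have ha : ∀ x, Measurable fun U : V → I => (labA U x : ℝ) := fun x =>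
      measurable_subtype_coe.comp ((measurable_pi_apply x).comp measurable_labA)
    have := measurable_state (A := fun _ : V → I => (gr (H n)).Adj) (fun _ _ => measurable_const)
      (R := fun U => edgeLt (labA U)) (U := fun U => noiseOf G (labA U) (labB U)) ?_ ?_ k e
    · simpa [fromRel_adj_self, sampF] using this
    · intro f g
      induction f using Sym2.ind with
      | _ x y =>
        induction g using Sym2.ind with
        | _ z w =>
          simp only [edgeLt, edgeKey, Sym2.lift_mk, Prod.Lex.toLex_lt_toLex]
          refine measurableSet_setOfPred.mp ?_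
          exact (measurableSet_lt ((ha x).max (ha y)) ((ha z).max (ha w))).union
            ((measurableSet_eq_fun ((ha x).max (ha y)) ((ha z).max (ha w))).inter
              (measurableSet_lt ((ha x).min (ha y)) ((ha z).min (ha w))))
    · rintro ⟨f, i⟩
      induction f using Sym2.ind with
      | _ x y =>
        simp only [noiseOf, Sym2.lift_mk]
        have hb : ∀ x y, Measurable fun U : V → I => labB U (slot G (labA U) x y i) := by
          intro x y
          have hr : Measurable fun U : V → I => rank G (labA U) x y := by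
            refine measurable_ncard _ fun z => ?_
            exact (MeasurableSet.const _).inter (measurableSet_lt (ha z) (ha y))
          have h1 : Measurable fun r : ℕ × (V × ℕ → I) => r.2 (x, 2 * Nat.pair r.1 i) :=
            measurable_from_prod_countable_right fun r => by
            exact measurable_pi_apply (x, 2 * Nat.pair r i)
          exact h1.comp (hr.prodMk measurable_labB)
        exact Measurable.ite (measurableSet_lt (ha x) (ha y)) (hb x y)
          (Measurable.ite (measurableSet_lt (ha y) (ha x)) (hb y x) measurable_const)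
  have hBadm : ∀ n, MeasurableSet (Bad n) := fun n => by
    have : MeasurableSet {U | ∀ e ∈ F, (0 < sampF G (H n) U k e ↔ 0 < samp G U k e)} := by
      simp only [Set.setOf_forall]
      refine Finset.measurableSet_biInter F fun e _ => ?_
      exact measurableSet_setOfPred.mpr
        ((measurableSet_setOfPred.mp (measurableSet_lt measurable_const (hsF n e))).iff
          (measurableSet_setOfPred.mp (measurableSet_lt measurable_const (measurable_samp' G k e))))
    exact this.compl
  have hbad : ∀ᶠ N in atTop, ∀ n, N ≤ n → μ.real (Bad n) ≤ τ + ε / 8 := by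
    set Un : ℕ → Set (V → I) := fun N => ⋃ n : ℕ, ⋃ _ : N ≤ n, Bad n with hUn
    have hanti : Antitone Un := fun N M hNM => Set.iUnion_mono fun n => Set.iUnion_mono' fun h =>
      ⟨hNM.trans h, le_rfl⟩
    have hlim := tendsto_measure_iInter_atTop (μ := μ) (s := Un)
      (fun N => (MeasurableSet.iUnion fun n => MeasurableSet.iUnion fun _ => hBadm n).nullMeasurableSet)
      hanti ⟨0, measure_ne_top _ _⟩
    have hint : μ.real (⋂ N, Un N) ≤ τ := by
      have hsubset : (⋂ N, Un N) ⊆ ⋃ e ∈ F, {U | |samp G U k e| < 1} := by
        intro U hU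
        by_contra hc
        simp only [Set.mem_iUnion, Set.mem_setOf_eq, not_exists, not_lt] at hc
        have hev : ∀ᶠ n in atTop, ∀ e ∈ F, (0 < sampF G (H n) U k e ↔ 0 < samp G U k e) := by
          refine (Finset.eventually_all F).mpr fun e he => ?_
          rcases lt_trichotomy 0 (samp G U k e) with h | h | h
          · filter_upwards [(hconv U k e (hF he)).eventually (eventually_gt_nhds h)] with n hn
            exact ⟨fun _ => h, fun _ => hn⟩
          · have := hc e he
            rw [← h, abs_zero] at this
            linarith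
          · filter_upwards [(hconv U k e (hF he)).eventually (eventually_lt_nhds h)] with n hn
            constructor <;> intro <;> linarith
        obtain ⟨N, hN⟩ := eventually_atTop.mp hev
        have := Set.mem_iInter.mp hU N
        simp only [hUn, hBad, Set.mem_iUnion, Set.mem_setOf_eq] at this
        obtain ⟨n, hn, hn'⟩ := this
        exact hn' (hN n hn)
      refine (measureReal_mono hsubset (measure_ne_top _ _)).trans ((measureReal_biUnion_finset_le _ _).trans ?_)
      refine (Finset.sum_le_sum fun e he => hQ e (hF he) k).trans (le_trans (le_of_eq ?_) hτ2)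
      rw [Finset.sum_const, nsmul_eq_mul]
      ring
    have hlim' := (ENNReal.tendsto_toReal (measure_ne_top μ _)).comp hlim
    filter_upwards [hlim'.eventually (eventually_le_nhds
      (show (μ (⋂ N, Un N)).toReal < τ + ε / 8 by
        have : (μ (⋂ N, Un N)).toReal ≤ τ := hint
        linarith))] with N hN n hn
    refine le_trans (measureReal_mono ?_ (measure_ne_top _ _)) hN
    exact Set.subset_iUnion₂ (s := fun n (_ : N ≤ n) => Bad n) n hn
  -- (3) finite volume at round `k` versus the uniform spanning forest
  obtain ⟨N, hN, hN'⟩ := (hbad.and (hevF.exists.elim fun _ _ => eventually_atTop.mpr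
    (by
      obtain ⟨N, hN⟩ := eventually_atTop.mp hevF
      exact ⟨N, fun M hM n (hn : M ≤ n) => hN n (hM.trans hn)⟩))).exists
  refine ⟨N, fun n hn => ?_⟩
  have hFn := hN' n hn
  have hBn := hN n hn
  set u := patP (H n) F S with hu
  set Wn := {U : V → I | ∀ e ∈ F, (0 < sampF G (H n) U k e ↔ e ∈ S)} with hWn
  set P := {y : Sym2 V → ℝ | ∀ e ∈ F, (0 < y e ↔ e ∈ S)} with hP
  have hPm : MeasurableSet P := by
    simp only [hP, Set.setOf_forall]
    refine Finset.measurableSet_biInter F fun e _ => ?_
    exact measurableSet_setOfPred.mpr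
      ((measurableSet_setOfPred.mp (measurableSet_lt measurable_const (measurable_pi_apply e))).iff
        measurable_const)
  have hPc : ∀ y y' : Sym2 V → ℝ, (∀ f ∈ F, y f = y' f) → y ∈ P → y' ∈ P :=
    fun y y' h hy e he => by rw [← h e he]; exact hy e he
  have hH := not_diag_of_subset (hsub n)
  have hu1 : (∑ T ∈ forests (H n), ENNReal.ofReal (pT (H n) (fun _ => 0) T) *
      (if ∀ e ∈ F, (e ∈ T ↔ e ∈ S) then 1 else 0)) = ENNReal.ofReal u := by
    rw [hu, patP, ENNReal.ofReal_sum_of_nonneg fun T _ => by
      split_ifs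
      · exact pT_nonneg _ _ _
      · exact le_rfl]
    exact Finset.sum_congr rfl fun T _ => by split_ifs <;> simp
  have hu2 : (∑ T ∈ forests (H n), ENNReal.ofReal (pT (H n) (fun _ => 0) T) *
      (if ∀ e ∈ F, (e ∈ T ↔ e ∈ S) then 0 else 1)) = ENNReal.ofReal (1 - u) := by
    rw [hu, patP, ← sum_pT hH (fun _ => 0), ← Finset.sum_sub_distrib,
      ENNReal.ofReal_sum_of_nonneg fun T _ => by
        split_ifs
        · linarith
        · linarith [pT_nonneg (H n) (fun _ => (0 : ℝ)) T]]
    exact Finset.sum_congr rfl fun T _ => by split_ifs <;> simp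
  have hu0 : 0 ≤ u ∧ u ≤ 1 := by
    constructor
    · exact Finset.sum_nonneg fun T _ => by
        split_ifs
        · exact pT_nonneg _ _ _
        · exact le_rfl
    · rw [← sum_pT hH (fun _ => 0)]
      exact Finset.sum_le_sum fun T _ => by
        split_ifs
        · exact le_rfl
        · exact pT_nonneg _ _ _
  have hfin : ((F.card : ℝ≥0∞) * beta ^ k).toReal ≤ τ := by
    rw [ENNReal.toReal_mul, ENNReal.toReal_natCast, ENNReal.toReal_pow, ← hb]
    refine le_trans ?_ hτ2
    have : 1 ≤ C := Real.one_le_exp (by norm_num)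
    nlinarith [mul_nonneg (Nat.cast_nonneg (α := ℝ) F.card) (pow_nonneg hb0 k)]
  have htop : (F.card : ℝ≥0∞) * beta ^ k ≠ ⊤ :=
    ENNReal.mul_ne_top (ENNReal.natCast_ne_top _) (ENNReal.pow_ne_top hbtop)
  have hWn1 : μ.real Wn ≤ u + τ := by
    have h := sampF_bound hlf (hsub n) k (E := F) hFn (P := P) hPm hPc
      (fun T => if ∀ e ∈ F, (e ∈ T ↔ e ∈ S) then 1 else 0) 1 (fun T y hy => by
        by_cases hT : ∀ e ∈ F, (e ∈ T ↔ e ∈ S)
        · rw [if_pos hT]; exact le_self_add
        · rw [if_neg hT, zero_add, one_mul]
          push Not at hT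
          obtain ⟨e, he, hne⟩ := hT
          refine le_trans (one_le_errF ?_)
            (Finset.single_le_sum (f := fun e => errF T e y) (fun _ _ => zero_le) he)
          intro h'
          have := hy e he
          tauto)
    rw [one_mul, hu1] at h
    have := ENNReal.toReal_mono (ENNReal.add_ne_top.mpr ⟨ENNReal.ofReal_ne_top, htop⟩) h
    rw [ENNReal.toReal_add ENNReal.ofReal_ne_top htop, ENNReal.toReal_ofReal hu0.1] at this
    exact this.trans (by linarith)
  have hWn2 : μ.real Wnᶜ ≤ 1 - u + τ := by
    have h := sampF_bound hlf (hsub n) k (E := F) hFn (P := Pᶜ) hPm.compl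
      (fun y y' h hy hy' => hy (hPc y' y (fun f hf => (h f hf).symm) hy'))
      (fun T => if ∀ e ∈ F, (e ∈ T ↔ e ∈ S) then 0 else 1) 1 (fun T y hy => by
        by_cases hT : ∀ e ∈ F, (e ∈ T ↔ e ∈ S)
        · rw [if_pos hT, zero_add, one_mul]
          simp only [hP, Set.mem_compl_iff, Set.mem_setOf_eq] at hy
          push Not at hy
          obtain ⟨e, he, hne⟩ := hy
          refine le_trans (one_le_errF ?_)
            (Finset.single_le_sum (f := fun e => errF T e y) (fun _ _ => zero_le) he)
          intro h'
          have h'' := hT e he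
          rcases hne with ⟨ha, hb'⟩ | ⟨ha, hb'⟩
          · exact hb' (h''.mp (h'.mp ha))
          · linarith [h'.mpr (h''.mpr hb')]
        · rw [if_neg hT]; exact le_self_add)
    rw [one_mul, hu2] at h
    have := ENNReal.toReal_mono (ENNReal.add_ne_top.mpr ⟨ENNReal.ofReal_ne_top, htop⟩) h
    rw [ENNReal.toReal_add ENNReal.ofReal_ne_top htop,
      ENNReal.toReal_ofReal (by linarith [hu0.2])] at this
    exact this.trans (by linarith)
  -- combine
  have e1 : Z ⊆ Wn ∪ (Bad n ∪ ⋃ m, Tail m) := by
    intro U hU
    by_contra hc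
    simp only [Set.mem_union, not_or] at hc
    obtain ⟨h1, h2, h3⟩ := hc
    have hW' := (hstab U h3).mp hU
    simp only [hBad, Set.mem_setOf_eq, not_not] at h2
    exact h1 fun e he => (h2 e he).trans (hW' e he)
  have e2 : Zᶜ ⊆ Wnᶜ ∪ (Bad n ∪ ⋃ m, Tail m) := by
    intro U hU
    by_contra hc
    simp only [Set.mem_union, not_or, Set.mem_compl_iff, not_not] at hc
    obtain ⟨h1, h2, h3⟩ := hc
    simp only [hBad, Set.mem_setOf_eq, not_not] at h2
    exact hU ((hstab U h3).mpr fun e he => (h2 e he).symm.trans (h1 e he))
  have hZm : MeasurableSet Z := by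
    simp only [hZ, Set.setOf_forall]
    refine Finset.measurableSet_biInter F fun e _ => ?_
    exact measurableSet_setOfPred.mpr ((measurable_phi' G e).iff measurable_const)
  have u1 : μ.real Z ≤ (u + τ) + ((τ + ε / 8) + τ) := by
    refine ((measureReal_mono e1).trans (measureReal_union_le _ _)).trans ?_
    exact add_le_add hWn1 ((measureReal_union_le _ _).trans (add_le_add hBn htail))
  have u2 : μ.real Zᶜ ≤ (1 - u + τ) + ((τ + ε / 8) + τ) := by
    refine ((measureReal_mono e2).trans (measureReal_union_le _ _)).trans ?_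
    exact add_le_add hWn2 ((measureReal_union_le _ _).trans (add_le_add hBn htail))
  rw [probReal_compl_eq_one_sub hZm] at u2
  rw [Real.dist_eq, abs_lt]
  constructor <;> linarith

/-- An exhaustion exists for every connected countable graph. -/
theorem exists_exhaustion [Countable V] {G : SimpleGraph V} (hG : G.Connected) :
    ∃ K, IsExhaustion G K := by
  classical
  obtain ⟨v₀⟩ := hG.nonempty
  have : Encodable (Sym2 V) := Encodable.ofCountable _
  have : Encodable V := Encodable.ofCountable _
  let wV : ∀ v, G.Walk v₀ v := fun v => (hG.preconnected v₀ v).some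
  -- the piece attached to the code `i`
  let piece : ℕ → G.Subgraph := fun i =>
    match Encodable.decode (α := V × V) i with
    | some (a, b) => if h : G.Adj a b then ((wV a).concat h).toSubgraph else (wV a).toSubgraph
    | none => G.singletonSubgraph v₀
  have hpc : ∀ i, (piece i).Connected ∧ v₀ ∈ (piece i).verts ∧ (piece i).verts.Finite := by
    intro i
    simp only [piece]
    split
    · split_ifs <;>
        exact ⟨Walk.toSubgraph_connected _, Walk.start_mem_verts_toSubgraph _, by
          rw [Walk.verts_toSubgraph]; exact List.finite_toSet _⟩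
    · exact ⟨Subgraph.singletonSubgraph_connected, by simp, by simp⟩
  let K : ℕ → G.Subgraph := fun n => Nat.rec (piece 0) (fun i acc => acc ⊔ piece (i + 1)) n
  have hK : ∀ n, (K n).Connected ∧ v₀ ∈ (K n).verts ∧ (K n).verts.Finite := by
    intro n
    induction n with
    | zero => exact hpc 0
    | succ n ih =>
      obtain ⟨h1, h2, h3⟩ := hpc (n + 1)
      exact ⟨Subgraph.connected_sup ih.1.preconnected h1.preconnected ⟨v₀, ih.2.1, h2⟩, Or.inl ih.2.1, ih.2.2.union h3⟩
  have hle : ∀ i, piece i ≤ K i := by
    intro i
    cases i with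
    | zero => exact le_rfl
    | succ i => exact le_sup_right
  refine ⟨K, ⟨fun n => (hK n).2.2, fun n => (hK n).1, monotone_nat_of_le_succ fun n => le_sup_left,
    fun v => ?_, fun e he => ?_⟩⟩
  · refine ⟨Encodable.encode (v, v), (hle _).1 ?_⟩
    simp only [piece, Encodable.encodek]
    rw [dif_neg G.irrefl]
    exact Walk.end_mem_verts_toSubgraph _
  · induction e using Sym2.ind with
    | _ a b =>
      have hab : G.Adj a b := he
      refine ⟨Encodable.encode (a, b), Subgraph.edgeSet_mono (hle _) ?_⟩
      simp only [piece, Encodable.encodek]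
      rw [dif_pos hab, Walk.mem_edges_toSubgraph]
      simp [Walk.edges_concat]

/-- `Phi G` has the law of the free uniform spanning forest of `G`. -/
theorem phi_hasFUSFLaw [Countable V] {G : SimpleGraph V} (hG : G.Connected)
    (hlf : ∀ v, (G.neighborSet v).Finite) : HasFUSFLaw G (Phi G) := by
  classical
  refine ⟨fun U e h => h.1, exists_exhaustion hG, fun K hK F S hF => ?_⟩
  have hfin : ∀ n, (K n).edgeSet.Finite := by
    intro n
    refine ((hK.finite n).prod (hK.finite n)).image (fun p : V × V => s(p.1, p.2)) |>.subset ?_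
    intro e he
    induction e using Sym2.ind with
    | _ a b => exact ⟨(a, b), ⟨(K n).edge_vert he, (K n).edge_vert ((K n).adj_symm he)⟩, rfl⟩
  set H : ℕ → Finset (Sym2 V) := fun n => (hfin n).toFinset with hH
  have hHK : ∀ n, (↑(H n) : Set (Sym2 V)) = (K n).edgeSet := fun n => (hfin n).coe_toFinset
  simp only [fun n => ustProb_eq (hK.connected n) (hHK n) F S]
  refine phi_hasLimit hlf (fun n => ?_) (fun f hf => ?_) F S hF
  · rw [hHK n]; exact (K n).edgeSet_subset
  · obtain ⟨N, hN⟩ := hK.edges_cover f hf
    filter_upwards [eventually_ge_atTop N] with n hn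
    rw [hH, Set.Finite.mem_toFinset]
    exact Subgraph.edgeSet_mono (hK.mono hn) hN

end Vale.Agent.P143
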