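import Vale.Agent.P143.Forest
import Mathlib.Analysis.SpecialFunctions.Log.Basic
import Mathlib.MeasureTheory.Constructions.BorelSpace.Order
import Mathlib.MeasureTheory.Constructions.BorelSpace.Real
import Mathlib.MeasureTheory.Constructions.BorelSpace.Basic
import Mathlib.Data.Sym.Sym2
import Mathlib.Analysis.SpecialFunctions.Exp

/-!
# Free marginals: monotonicity, Lipschitz bound, continuity under exhaustion
-/

namespace Vale.Agent.P143

open SimpleGraph Finset Filter Topology

variable {V : Type*} [DecidableEq V]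

/-- Effective resistance across the edge `e`. -/
noncomputable def RR (H : Finset (Sym2 V)) (y : Sym2 V → ℝ) (e : Sym2 V) : ℝ :=
  prob H y e / Real.exp (y e)

lemma prob_eq_RR (H : Finset (Sym2 V)) (y : Sym2 V → ℝ) (e : Sym2 V) :
    prob H y e = Real.exp (y e) * RR H y e := by
  rw [RR, mul_div_cancel₀ _ (Real.exp_pos _).ne']

lemma RR_nonneg (H : Finset (Sym2 V)) (y : Sym2 V → ℝ) (e : Sym2 V) : 0 ≤ RR H y e :=
  div_nonneg (prob_nonneg _ _ _) (Real.exp_pos _).le

lemma RR_le_exp (H : Finset (Sym2 V)) (y : Sym2 V → ℝ) (e : Sym2 V) :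
    RR H y e ≤ Real.exp (- y e) := by
  rw [Real.exp_neg, RR, div_eq_mul_inv]
  exact mul_le_of_le_one_left (inv_nonneg.mpr (Real.exp_pos _).le) (prob_le_one _ _ _)

lemma RR_le_energy {H : Finset (Sym2 V)} (hH : ∀ f ∈ H, ¬ f.IsDiag) (w : Sym2 V → ℝ)
    {x y : V} (he : s(x, y) ∈ H) {θ : V → V → ℝ} (hθ : IsFlow H x y θ) :
    RR H w s(x, y) ≤ energy H w θ :=
  (kirchhoff hH w he).2 θ hθ

lemma energy_current {H : Finset (Sym2 V)} (hH : ∀ f ∈ H, ¬ f.IsDiag) (w : Sym2 V → ℝ)
    {x y : V} (he : s(x, y) ∈ H) : energy H w (current H w x y) = RR H w s(x, y) :=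
  (kirchhoff hH w he).1

/-- Rayleigh: more edges, less resistance. -/
lemma RR_mono {H H' : Finset (Sym2 V)} (hH' : ∀ f ∈ H', ¬ f.IsDiag) (hsub : H ⊆ H')
    (w : Sym2 V → ℝ) {e : Sym2 V} (he : e ∈ H) : RR H' w e ≤ RR H w e := by
  induction e using Sym2.ind with
  | _ x y =>
    have hH : ∀ f ∈ H, ¬ f.IsDiag := fun f hf => hH' f (hsub hf)
    have hI := isFlow_current hH w he
    refine (RR_le_energy hH' w (hsub he) (hI.mono hsub)).trans ?_
    rw [sum_flow_energy_subset hsub w hI.supp, energy_current hH w he]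

lemma prob_mono {H H' : Finset (Sym2 V)} (hH' : ∀ f ∈ H', ¬ f.IsDiag) (hsub : H ⊆ H')
    (w : Sym2 V → ℝ) {e : Sym2 V} (he : e ∈ H) : prob H' w e ≤ prob H w e := by
  rw [prob_eq_RR, prob_eq_RR]
  exact mul_le_mul_of_nonneg_left (RR_mono hH' hsub w he) (Real.exp_pos _).le

/-- Rayleigh: larger conductances, less resistance (quantitatively). -/
lemma RR_shift {H : Finset (Sym2 V)} (hH : ∀ f ∈ H, ¬ f.IsDiag) {w w' : Sym2 V → ℝ} {δ : ℝ}
    (h : ∀ f ∈ H, w' f ≤ w f + δ) {e : Sym2 V} (he : e ∈ H) :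
    RR H w e ≤ Real.exp δ * RR H w' e := by
  induction e using Sym2.ind with
  | _ x y =>
    refine (RR_le_energy hH w he (isFlow_current hH w' he)).trans ?_
    rw [← energy_current hH w' he, energy, energy, Finset.mul_sum]
    refine Finset.sum_le_sum fun f hf => ?_
    have h1 : Real.exp (- w f) ≤ Real.exp δ * Real.exp (- w' f) := by
      rw [← Real.exp_add]
      exact Real.exp_le_exp.mpr (by linarith [h f hf])
    calc _ ≤ sq (current H w' x y) f * (Real.exp δ * Real.exp (- w' f)) :=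
          mul_le_mul_of_nonneg_left h1 (sq_nonneg' _ _)
      _ = _ := by ring

lemma prob_lip {H : Finset (Sym2 V)} (hH : ∀ f ∈ H, ¬ f.IsDiag) {w w' : Sym2 V → ℝ} {ε : ℝ}
    (h : ∀ f ∈ H, |w f - w' f| ≤ ε) {e : Sym2 V} (he : e ∈ H) :
    |prob H w e - prob H w' e| ≤ 2 * ε := by
  have key : ∀ u u' : Sym2 V → ℝ, (∀ f ∈ H, |u f - u' f| ≤ ε) →
      prob H u e - prob H u' e ≤ 2 * ε := by
    intro u u' hu
    have hε : 0 ≤ ε := (abs_nonneg _).trans (hu e he)
    have h1 := RR_shift hH (w := u) (w' := u') (δ := ε)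
      (fun f hf => by linarith [(abs_le.mp (hu f hf)).1]) he
    have h2 : prob H u e ≤ Real.exp (2 * ε) * prob H u' e := by
      rw [prob_eq_RR, prob_eq_RR H u']
      calc _ ≤ Real.exp (u' e + ε) * (Real.exp ε * RR H u' e) := by
            refine mul_le_mul (Real.exp_le_exp.mpr ?_) h1 (RR_nonneg _ _ _) (Real.exp_pos _).le
            linarith [(abs_le.mp (hu e he)).2]
        _ = _ := by rw [two_mul, Real.exp_add, Real.exp_add]; ring
    have h3 : Real.exp (-(2 * ε)) * prob H u e ≤ prob H u' e := by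
      rw [Real.exp_neg, inv_mul_le_iff₀ (Real.exp_pos _)]
      exact h2
    have h4 := Real.add_one_le_exp (-(2 * ε))
    have h5 := prob_nonneg H u e
    have h6 := prob_le_one H u e
    nlinarith
  rw [abs_le]
  refine ⟨?_, key w w' h⟩
  have := key w' w (fun f hf => by rw [abs_sub_comm]; exact h f hf)
  linarith

lemma prob_tendsto {ι : Type*} {l : Filter ι} {H : Finset (Sym2 V)} (hH : ∀ f ∈ H, ¬ f.IsDiag)
    {w : ι → Sym2 V → ℝ} {w₀ : Sym2 V → ℝ}
    (h : ∀ f ∈ H, Tendsto (fun i => w i f) l (𝓝 (w₀ f))) (e : Sym2 V) :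
    Tendsto (fun i => prob H (w i) e) l (𝓝 (prob H w₀ e)) := by
  have hwt : ∀ T ∈ forests H, Tendsto (fun i => wt (w i) T) l (𝓝 (wt w₀ T)) := fun T hT =>
    ((Real.continuous_exp.tendsto _).comp
      (tendsto_finset_sum T fun f hf => h f ((mem_forests.mp hT).1 hf)))
  unfold prob
  refine Tendsto.div (tendsto_finset_sum _ fun T hT => hwt T (Finset.mem_filter.mp hT).1)
    (tendsto_finset_sum _ hwt) (Zf_pos hH w₀).ne'

/-! ### The free marginal -/

open scoped Classical in
/-- The free marginal of edge `e` under tilts `y`: infimum over finite subgraphs. -/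
noncomputable def marg (G : SimpleGraph V) (y : Sym2 V → ℝ) (e : Sym2 V) : ℝ :=
  ⨅ H : Finset (Sym2 V), if (↑H ⊆ G.edgeSet) ∧ e ∈ H then prob H y e else 1

omit [DecidableEq V] in
lemma not_diag_of_subset {G : SimpleGraph V} {H : Finset (Sym2 V)} (h : ↑H ⊆ G.edgeSet) :
    ∀ f ∈ H, ¬ f.IsDiag := fun _ hf => G.not_isDiag_of_mem_edgeSet (h hf)

open scoped Classical in
lemma marg_bdd (G : SimpleGraph V) (y : Sym2 V → ℝ) (e : Sym2 V) :
    BddBelow (Set.range fun H : Finset (Sym2 V) =>
      if (↑H ⊆ G.edgeSet) ∧ e ∈ H then prob H y e else 1) := by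
  refine ⟨0, ?_⟩
  rintro _ ⟨H, rfl⟩
  dsimp only
  split_ifs
  · exact prob_nonneg _ _ _
  · exact zero_le_one

lemma marg_nonneg (G : SimpleGraph V) (y : Sym2 V → ℝ) (e : Sym2 V) : 0 ≤ marg G y e := by
  classical
  refine le_ciInf fun H => ?_
  split_ifs
  · exact prob_nonneg _ _ _
  · exact zero_le_one

lemma marg_le_one (G : SimpleGraph V) (y : Sym2 V → ℝ) (e : Sym2 V) : marg G y e ≤ 1 := by
  classical
  refine (ciInf_le (marg_bdd G y e) ∅).trans ?_
  simp

lemma marg_le_prob {G : SimpleGraph V} {H : Finset (Sym2 V)} (hH : ↑H ⊆ G.edgeSet)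
    (y : Sym2 V → ℝ) {e : Sym2 V} (he : e ∈ H) : marg G y e ≤ prob H y e := by
  classical
  refine (ciInf_le (marg_bdd G y e) H).trans ?_
  rw [if_pos ⟨hH, he⟩]

lemma le_marg {G : SimpleGraph V} {y : Sym2 V → ℝ} {e : Sym2 V} {c : ℝ} (h1 : c ≤ 1)
    (h : ∀ H : Finset (Sym2 V), ↑H ⊆ G.edgeSet → e ∈ H → c ≤ prob H y e) :
    c ≤ marg G y e := by
  classical
  refine le_ciInf fun H => ?_
  split_ifs with hc
  · exact h H hc.1 hc.2
  · exact h1

lemma marg_lip (G : SimpleGraph V) {w w' : Sym2 V → ℝ} {ε : ℝ} (hε : 0 ≤ ε)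
    (h : ∀ f ∈ G.edgeSet, |w f - w' f| ≤ ε) (e : Sym2 V) :
    |marg G w e - marg G w' e| ≤ 2 * ε := by
  have key : ∀ u u' : Sym2 V → ℝ, (∀ f ∈ G.edgeSet, |u f - u' f| ≤ ε) →
      marg G u e - 2 * ε ≤ marg G u' e := by
    intro u u' hu
    refine le_marg (by linarith [marg_le_one G u e]) fun H hH he => ?_
    have := (abs_le.mp (prob_lip (not_diag_of_subset hH) (fun f hf => hu f (hH hf)) he)).2
    linarith [marg_le_prob hH u he]
  rw [abs_le]
  have h1 := key w w' h
  have h2 := key w' w (fun f hf => by rw [abs_sub_comm]; exact h f hf)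
  constructor <;> linarith

/-- For a finite graph the marginal is the forest probability. -/
lemma marg_finite {H : Finset (Sym2 V)} (hH : ∀ f ∈ H, ¬ f.IsDiag) (y : Sym2 V → ℝ)
    {e : Sym2 V} (he : e ∈ H) : marg (gr H) y e = prob H y e := by
  have hset : (↑H : Set (Sym2 V)) ⊆ (gr H).edgeSet := by
    intro f hf
    rw [gr, edgeSet_fromEdgeSet]
    exact ⟨hf, fun hd => hH f hf (by simpa using hd)⟩
  refine le_antisymm (marg_le_prob hset y he) (le_marg (prob_le_one _ _ _) fun K hK heK => ?_)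
  refine prob_mono hH (fun f hf => ?_) y heK
  have := hK hf
  rw [gr, edgeSet_fromEdgeSet] at this
  exact this.1

/-- Uniform tail: resistances of finite subgraphs barely improve if far conductances grow. -/
lemma tail_bound {G : SimpleGraph V} {y : Sym2 V → ℝ} {M : ℝ}
    (hy : ∀ f ∈ G.edgeSet, |y f| ≤ M) {e : Sym2 V} (he : e ∈ G.edgeSet) {ε : ℝ} (hε : 0 < ε) :
    ∃ F : Finset (Sym2 V), ∀ H : Finset (Sym2 V), ↑H ⊆ G.edgeSet → e ∈ H →
      marg G y e / Real.exp (y e) - ε ≤ RR H (fun f => if f ∈ F then y f else M) e := by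
  classical
  induction e using Sym2.ind with
  | _ x x' =>
  set e := s(x, x') with hedef
  set z : Finset (Sym2 V) → Sym2 V → ℝ := fun F f => if f ∈ F then y f else M with hz
  let ι := {H : Finset (Sym2 V) // ↑H ⊆ G.edgeSet ∧ e ∈ H}
  have : Nonempty ι := ⟨⟨{e}, by simpa using he, Finset.mem_singleton_self _⟩⟩
  set a : Finset (Sym2 V) → ℝ := fun F => ⨅ H : ι, RR H.1 (z F) e with ha
  have hbdd : ∀ F, BddBelow (Set.range fun H : ι => RR H.1 (z F) e) := fun F =>
    ⟨0, by rintro _ ⟨H, rfl⟩; exact RR_nonneg _ _ _⟩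
  have ha_up : BddAbove (Set.range a) := by
    refine ⟨Real.exp M, ?_⟩
    rintro _ ⟨F, rfl⟩
    refine (ciInf_le (hbdd F) ⟨{e}, by simpa using he, Finset.mem_singleton_self _⟩).trans ?_
    refine (RR_le_exp _ _ _).trans (Real.exp_le_exp.mpr ?_)
    have := (abs_le.mp (hy e he))
    simp only [hz]
    split_ifs <;> linarith
  set L := ⨆ F, a F with hL
  set η := ε / (3 + 8 * Real.exp (2 * M)) with hη
  have hη0 : 0 < η := by positivity
  obtain ⟨F1, hF1⟩ := exists_lt_of_lt_ciSup (show L - η < ⨆ F, a F by rw [← hL]; linarith)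
  obtain ⟨H1, hH1⟩ := exists_lt_of_ciInf_lt (show a F1 < a F1 + η by linarith)
  set F2 := F1 ∪ H1.1 with hF2
  refine ⟨F2, fun H hHsub heH => ?_⟩
  refine le_trans ?_ (ciInf_le (hbdd F2) ⟨H, hHsub, heH⟩)
  obtain ⟨H2, hH2⟩ := exists_lt_of_ciInf_lt (show a F2 < a F2 + η by linarith)
  have hd1 := not_diag_of_subset H1.2.1
  have hd2 := not_diag_of_subset H2.2.1
  set K := H1.1 ∪ H2.1 with hK
  have hKsub : (↑K : Set (Sym2 V)) ⊆ G.edgeSet := by
    rw [hK, Finset.coe_union]; exact Set.union_subset H1.2.1 H2.2.1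
  have heK : e ∈ K := Finset.mem_union_left _ H1.2.2
  have hdK := not_diag_of_subset hKsub
  set θ1 := current H1.1 (z F1) x x' with hθ1
  set θ2 := current H2.1 (z F2) x x' with hθ2
  have hf1 : IsFlow H1.1 x x' θ1 := isFlow_current hd1 _ H1.2.2
  have hf2 : IsFlow H2.1 x x' θ2 := isFlow_current hd2 _ H2.2.2
  have g1 : IsFlow K x x' θ1 := hf1.mono Finset.subset_union_left
  have g2 : IsFlow K x x' θ2 := hf2.mono Finset.subset_union_right
  have hE1 : energy K (z F1) θ1 < a F1 + η := by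
    rw [sum_flow_energy_subset Finset.subset_union_left _ hf1.supp, hθ1,
      energy_current hd1 _ H1.2.2]
    exact hH1
  have hE2 : energy K (z F2) θ2 < a F2 + η := by
    rw [sum_flow_energy_subset Finset.subset_union_right _ hf2.supp, hθ2,
      energy_current hd2 _ H2.2.2]
    exact hH2
  have hz12 : ∀ f ∈ K, z F2 f ≤ z F1 f := by
    intro f hf
    have := abs_le.mp (hy f (hKsub hf))
    by_cases h1 : f ∈ F1
    · simp only [hz, hF2, if_pos h1, if_pos (Finset.mem_union_left _ h1)]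
      exact le_rfl
    · simp only [hz, if_neg h1]
      split_ifs <;> linarith
  have hE12 : energy K (z F1) θ2 ≤ energy K (z F2) θ2 :=
    Finset.sum_le_sum fun f hf => mul_le_mul_of_nonneg_left
      (Real.exp_le_exp.mpr (by linarith [hz12 f hf])) (sq_nonneg' _ _)
  set mid : V → V → ℝ := fun u v => (θ1 u v + θ2 u v) / 2 with hmid
  set dif : V → V → ℝ := fun u v => θ2 u v - θ1 u v with hdif
  have gmid : IsFlow K x x' mid := by
    refine ⟨fun u v => ?_, fun u v huv => ?_, fun u => ?_⟩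
    · simp only [hmid]; rw [g1.anti u v, g2.anti u v]; ring
    · simp only [hmid]; rw [g1.supp u v huv, g2.supp u v huv]; ring
    · rw [finsum_eq_sum_of_support_subset _ (s := endpts K)]
      · simp only [hmid]
        rw [← Finset.sum_div, Finset.sum_add_distrib, g1.div_sum u, g2.div_sum u]
        ring
      · intro v hv
        simp only [Function.mem_support, hmid] at hv
        by_contra hv'
        refine hv ?_
        rw [g1.supp u v (fun h => hv' (mem_endpts_right h)),
          g2.supp u v (fun h => hv' (mem_endpts_right h))]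
        ring
  have hlow : a F1 ≤ energy K (z F1) mid :=
    (ciInf_le (hbdd F1) ⟨K, hKsub, heK⟩).trans (RR_le_energy hdK _ heK gmid)
  have hpar : energy K (z F1) dif =
      2 * energy K (z F1) θ1 + 2 * energy K (z F1) θ2 - 4 * energy K (z F1) mid := by
    simp only [energy, Finset.mul_sum, ← Finset.sum_add_distrib, ← Finset.sum_sub_distrib]
    refine Finset.sum_congr rfl fun f _ => ?_
    induction f using Sym2.ind with
    | _ u v => simp only [sq, Sym2.lift_mk, hmid, hdif]; ring
  have haL : ∀ F, a F ≤ L := fun F => le_ciSup ha_up F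
  have hdifs : energy K (z F1) dif ≤ 8 * η := by
    linarith [haL F1, haL F2]
  have hsplit : energy K y θ2 ≤
      energy K (z F2) θ2 + Real.exp (2 * M) * energy K (z F1) dif := by
    simp only [energy, Finset.mul_sum, ← Finset.sum_add_distrib]
    refine Finset.sum_le_sum fun f hf => ?_
    by_cases h2 : f ∈ F2
    · simp only [hz, if_pos h2]
      have := mul_nonneg (sq_nonneg' dif f) (Real.exp_pos (-(if f ∈ F1 then y f else M))).le
      nlinarith [Real.exp_pos (2 * M)]
    · have h1 : f ∉ F1 := fun h => h2 (Finset.mem_union_left _ h)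
      have hH1' : f ∉ H1.1 := fun h => h2 (Finset.mem_union_right _ h)
      have hsq : sq θ2 f = sq dif f := by
        induction f using Sym2.ind with
        | _ u v =>
          simp [sq, hdif, hf1.supp u v hH1', hf1.supp v u (by rwa [Sym2.eq_swap])]
      simp only [hz, if_neg h1, if_neg h2]
      rw [hsq]
      have hexp : Real.exp (- y f) ≤ Real.exp (2 * M) * Real.exp (- M) := by
        rw [← Real.exp_add]
        exact Real.exp_le_exp.mpr (by linarith [(abs_le.mp (hy f (hKsub hf))).1])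
      calc sq dif f * Real.exp (- y f) ≤ sq dif f * (Real.exp (2 * M) * Real.exp (- M)) :=
            mul_le_mul_of_nonneg_left hexp (sq_nonneg' _ _)
        _ ≤ _ := by
            have := mul_nonneg (sq_nonneg' dif f) (Real.exp_pos (- M)).le
            linarith
  have hm : marg G y e / Real.exp (y e) ≤ energy K y θ2 := by
    refine le_trans ?_ (RR_le_energy hdK y heK g2)
    exact div_le_div_of_nonneg_right (marg_le_prob hKsub y heK) (Real.exp_pos _).le
  have hεη : (3 + 8 * Real.exp (2 * M)) * η = ε := by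
    rw [hη, mul_div_cancel₀]
    positivity
  have : Real.exp (2 * M) * energy K (z F1) dif ≤ Real.exp (2 * M) * (8 * η) :=
    mul_le_mul_of_nonneg_left hdifs (Real.exp_pos _).le
  linarith [haL F2, hE2]

/-- Continuous convergence of finite-volume marginals to the free marginal. -/
theorem prob_tendsto_marg {G : SimpleGraph V} {H : ℕ → Finset (Sym2 V)}
    (hsub : ∀ n, ↑(H n) ⊆ G.edgeSet) (hex : ∀ f ∈ G.edgeSet, ∀ᶠ n in atTop, f ∈ H n)
    {w : ℕ → Sym2 V → ℝ} {y : Sym2 V → ℝ} {M : ℝ}
    (hw : ∀ f ∈ G.edgeSet, Tendsto (fun n => w n f) atTop (𝓝 (y f)))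
    (hwM : ∀ n, ∀ f ∈ H n, |w n f| ≤ M) (hyM : ∀ f ∈ G.edgeSet, |y f| ≤ M)
    {e : Sym2 V} (he : e ∈ G.edgeSet) :
    Tendsto (fun n => prob (H n) (w n) e) atTop (𝓝 (marg G y e)) := by
  classical
  set m := marg G y e with hm
  have hsubset : ∀ K : Finset (Sym2 V), ↑K ⊆ G.edgeSet → ∀ᶠ n in atTop, K ⊆ H n := by
    intro K hK
    have : ∀ᶠ n in atTop, ∀ f ∈ K, f ∈ H n :=
      (Finset.eventually_all K).mpr fun f hf => hex f (hK hf)
    exact this.mono fun n hn f hf => hn f hf
  rw [tendsto_order]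
  constructor
  · intro c hc
    by_cases hc0 : c < 0
    · exact Eventually.of_forall fun n => hc0.trans_le (prob_nonneg _ _ _)
    rw [not_lt] at hc0
    set δ := (m - c) / 8 with hδ
    have hδ0 : 0 < δ := by simp only [hδ]; linarith
    obtain ⟨F, hF⟩ := tail_bound hyM he (ε := 2 * δ / Real.exp (y e)) (by positivity)
    have hevF : ∀ᶠ n in atTop, ∀ f ∈ F.filter (fun f => f ∈ G.edgeSet), w n f ≤ y f + δ := by
      refine (Finset.eventually_all _).mpr fun f hf => ?_
      exact (hw f (Finset.mem_filter.mp hf).2).eventually (eventually_le_nhds (by linarith))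
    have heve : ∀ᶠ n in atTop, y e - δ ≤ w n e :=
      (hw e he).eventually (eventually_ge_nhds (by linarith))
    filter_upwards [hevF, heve, hex e he] with n h1 h2 h3
    set z : Sym2 V → ℝ := fun f => if f ∈ F then y f else M with hz
    have hshift : RR (H n) z e ≤ Real.exp δ * RR (H n) (w n) e := by
      refine RR_shift (not_diag_of_subset (hsub n)) (fun f hf => ?_) h3
      simp only [hz]
      split_ifs with hfF
      · exact h1 f (Finset.mem_filter.mpr ⟨hfF, hsub n hf⟩)
      · linarith [(abs_le.mp (hwM n f hf)).2]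
    have h4 := hF (H n) (hsub n) h3
    rw [← hm, ← sub_div] at h4
    have h5 : m - 2 * δ ≤ Real.exp (y e) * (Real.exp δ * RR (H n) (w n) e) := by
      have := (div_le_iff₀ (Real.exp_pos (y e))).mp (h4.trans hshift)
      linarith
    have h6 : Real.exp (y e) ≤ Real.exp δ * Real.exp (w n e) := by
      rw [← Real.exp_add]; exact Real.exp_le_exp.mpr (by linarith)
    have h7 : m - 2 * δ ≤ Real.exp (2 * δ) * prob (H n) (w n) e := by
      refine h5.trans ?_
      rw [prob_eq_RR, two_mul, Real.exp_add]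
      have h0 : 0 ≤ Real.exp δ * RR (H n) (w n) e :=
        mul_nonneg (Real.exp_pos _).le (RR_nonneg _ _ _)
      calc _ ≤ (Real.exp δ * Real.exp (w n e)) * (Real.exp δ * RR (H n) (w n) e) :=
            mul_le_mul_of_nonneg_right h6 h0
        _ = _ := by ring
    have h8 : Real.exp (-(2 * δ)) * (m - 2 * δ) ≤ prob (H n) (w n) e := by
      rw [Real.exp_neg, inv_mul_le_iff₀ (Real.exp_pos _)]
      exact h7
    have h9 := Real.add_one_le_exp (-(2 * δ))
    have h10 : m ≤ 1 := marg_le_one G y e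
    nlinarith
  · intro c hc
    by_cases hc1 : 1 < c
    · exact Eventually.of_forall fun n => (prob_le_one _ _ _).trans_lt hc1
    obtain ⟨K, hK⟩ := exists_lt_of_ciInf_lt (hm ▸ hc : marg G y e < c)
    by_cases hKv : (↑K ⊆ G.edgeSet) ∧ e ∈ K
    · rw [if_pos hKv] at hK
      have ht : Tendsto (fun n => prob K (w n) e) atTop (𝓝 (prob K y e)) :=
        prob_tendsto (not_diag_of_subset hKv.1) (fun f hf => hw f (hKv.1 hf)) e
      filter_upwards [ht.eventually (eventually_lt_nhds hK), hsubset K hKv.1] with n hn hKn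
      exact (prob_mono (not_diag_of_subset (hsub n)) hKn (w n) hKv.2).trans_lt hn
    · rw [if_neg hKv] at hK
      exact absurd hK hc1

end Vale.Agent.P143
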