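import Vale.Agent.P143.Exact
import Mathlib.Probability.Kernel.Representation
import Mathlib.Probability.Independence.InfinitePi
import Mathlib.Data.Set.Card
import Mathlib.Data.Nat.Pairing

/-!
# Edge noise and a random edge order from vertex labels
-/

namespace Vale.Agent.P143

open SimpleGraph Finset Filter Topology unitInterval MeasureTheory
open scoped ENNReal

/-- One uniform variable contains a pair of a uniform variable and an i.i.d. sequence. -/
lemma exists_split : ∃ g : I → I × (ℕ → I), Measurable g ∧
    (volume : Measure I).map g = (volume : Measure I).prod (unifPi ℕ) :=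
  MeasureTheory.Measure.exists_measurable_map_eq _

/-- A measure-preserving splitting of a uniform variable. -/
noncomputable def split : I → I × (ℕ → I) := exists_split.choose

lemma measurable_split : Measurable split := exists_split.choose_spec.1

lemma map_split : (volume : Measure I).map split = (volume : Measure I).prod (unifPi ℕ) :=
  exists_split.choose_spec.2

/-- Pairing two independent product measures gives the product measure of pairs. -/
lemma map_prod_arrow {ι X Y : Type*} [MeasurableSpace X] [MeasurableSpace Y]
    (μ : Measure X) [IsProbabilityMeasure μ] (ν : Measure Y) [IsProbabilityMeasure ν] :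
    ((Measure.infinitePi fun _ : ι => μ).prod (Measure.infinitePi fun _ : ι => ν)).map
      (fun p i => (p.1 i, p.2 i)) = Measure.infinitePi fun _ : ι => μ.prod ν := by
  refine Measure.eq_infinitePi _ fun s t ht => ?_
  have hm : Measurable fun (p : (ι → X) × (ι → Y)) i => (p.1 i, p.2 i) := by fun_prop
  rw [Measure.map_apply hm (.pi s.countable_toSet fun i _ => ht i)]
  set B : Set (s → X × Y) := Set.univ.pi fun i : s => t i with hB
  have hBm : MeasurableSet B := .univ_pi fun i => ht i
  set e := MeasurableEquiv.arrowProdEquivProdArrow X Y s with he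
  have hpre : (fun (p : (ι → X) × (ι → Y)) i => (p.1 i, p.2 i)) ⁻¹' (Set.pi ↑s t) =
      Prod.map s.restrict s.restrict ⁻¹' (e.symm ⁻¹' B) := by
    ext p
    simp [hB, he, MeasurableEquiv.arrowProdEquivProdArrow, Equiv.arrowProdEquivProdArrow]
  rw [hpre, ← Measure.map_apply (by fun_prop) (e.symm.measurable hBm),
    ← Measure.map_prod_map _ _ (Finset.measurable_restrict s) (Finset.measurable_restrict s),
    Measure.infinitePi_map_restrict, Measure.infinitePi_map_restrict]
  have hp := measurePreserving_arrowProdEquivProdArrow X Y s (fun _ => μ) (fun _ => ν)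
  rw [← hp.map_eq, Measure.map_apply hp.measurable (e.symm.measurable hBm), ← Set.preimage_comp,
    show (e.symm ∘ e : (s → X × Y) → (s → X × Y)) = id from funext e.symm_apply_apply,
    Set.preimage_id, hB, Measure.pi_pi]
  exact Finset.prod_coe_sort s fun i => (μ.prod ν) (t i)

variable {V : Type*}

/-- The ordering label of each vertex. -/
noncomputable def labA (U : V → I) (v : V) : I := (split (U v)).1

/-- The noise labels of each vertex. -/
noncomputable def labB (U : V → I) (q : V × ℕ) : I := (split (U q.1)).2 q.2

lemma measurable_labA : Measurable (labA (V := V)) :=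
  measurable_pi_lambda _ fun v =>
    (measurable_fst.comp measurable_split).comp (measurable_pi_apply v)

lemma measurable_labB : Measurable (labB (V := V)) :=
  measurable_pi_lambda _ fun q =>
    ((measurable_pi_apply q.2).comp (measurable_snd.comp measurable_split)).comp
      (measurable_pi_apply q.1)

/-- The two families of labels are independent i.i.d. uniform families. -/
lemma map_labels :
    (unifPi V).map (fun U => (labA U, labB U)) = (unifPi V).prod (unifPi (V × ℕ)) := by
  have h1 : (unifPi V).map (fun U v => split (U v)) =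
      Measure.infinitePi fun _ : V => (volume : Measure I).prod (unifPi ℕ) := by
    rw [unifPi, Measure.infinitePi_map_pi _ (fun _ => measurable_split)]
    simp only [map_split]
  have h2 : (unifPi (V × ℕ)).map (MeasurableEquiv.curry V ℕ I) =
      Measure.infinitePi fun _ : V => unifPi ℕ := by
    unfold unifPi
    exact Measure.infinitePi_map_curry (fun (_ : V) (_ : ℕ) => (volume : Measure I))
  have h3 : ((unifPi V).prod (Measure.infinitePi fun _ : V => unifPi ℕ)).map
      (fun p v => (p.1 v, p.2 v)) =
      Measure.infinitePi fun _ : V => (volume : Measure I).prod (unifPi ℕ) :=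
    map_prod_arrow _ _
  have hσ : Measurable fun x : V → I × (ℕ → I) =>
      ((fun v => (x v).1), fun q : V × ℕ => (x q.1).2 q.2) := by fun_prop
  have hm : Measurable fun (U : V → I) v => split (U v) :=
    measurable_pi_lambda _ fun v => measurable_split.comp (measurable_pi_apply v)
  have : (unifPi V).map (fun U => (labA U, labB U)) =
      ((unifPi V).map (fun U v => split (U v))).map
        (fun x : V → I × (ℕ → I) => ((fun v => (x v).1), fun q : V × ℕ => (x q.1).2 q.2)) := by
    rw [Measure.map_map hσ hm]
    rfl
  rw [this, h1, ← h3, Measure.map_map hσ (by fun_prop), ← h2]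
  conv_lhs => rw [show unifPi V = (unifPi V).map id from Measure.map_id.symm,
    Measure.map_prod_map _ _ measurable_id (MeasurableEquiv.curry V ℕ I).measurable,
    Measure.map_map (hσ.comp (by fun_prop)) (by fun_prop)]
  exact Measure.map_id

/-- Almost surely the ordering labels are injective. -/
lemma ae_injective [Countable V] : ∀ᵐ a ∂(unifPi V), Function.Injective a := by
  have h : ∀ i j : V, ∀ᵐ a ∂(unifPi V), a i = a j → i = j := by
    intro i j
    by_cases hij : i = j
    · exact Eventually.of_forall fun a _ => hij
    have hmap := Measure.infinitePi_map_eval_prod (P := fun _ : V => (volume : Measure I)) hij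
    have hd : MeasurableSet (Set.diagonal I) := measurableSet_diagonal
    have h0 : ((volume : Measure I).prod volume) (Set.diagonal I) = 0 := by
      rw [Measure.prod_apply hd]
      refine lintegral_eq_zero_of_ae_eq_zero (Eventually.of_forall fun x => ?_)
      have : Prod.mk x ⁻¹' Set.diagonal I = {x} := by ext y; simp [eq_comm]
      simp [this]
    rw [← hmap, Measure.map_apply (by fun_prop) hd] at h0
    rw [ae_iff]
    exact measure_mono_null (fun a ha => by simp_all [Set.diagonal]) h0
  filter_upwards [ae_all_iff.mpr fun i => ae_all_iff.mpr (h i)] with a ha i j hij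
  exact ha i j hij

/-- Key giving a random order of the edges. -/
noncomputable def edgeKey (a : V → I) (f : Sym2 V) : ℝ ×ₗ ℝ :=
  Sym2.lift ⟨fun x y => toLex (max (a x : ℝ) (a y), min (a x : ℝ) (a y)),
    fun x y => by beta_reduce; rw [max_comm, min_comm]⟩ f

/-- The random order of the edges. -/
def edgeLt (a : V → I) (f g : Sym2 V) : Prop := edgeKey a f < edgeKey a g

lemma edgeKey_injOn {a : V → I} (ha : Function.Injective a) :
    Function.Injective (edgeKey a) := by
  intro f g h
  induction f using Sym2.ind with
  | _ x y =>
    induction g using Sym2.ind with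
    | _ z w =>
      simp only [edgeKey, Sym2.lift_mk, EmbeddingLike.apply_eq_iff_eq, Prod.mk.injEq] at h
      have hi : Function.Injective fun v => (a v : ℝ) := Subtype.val_injective.comp ha
      obtain ⟨h1, h2⟩ := h
      rw [Sym2.eq_iff]
      rcases le_total (a x : ℝ) (a y) with hxy | hxy <;>
        rcases le_total (a z : ℝ) (a w) with hzw | hzw <;>
        simp only [max_eq_left, max_eq_right, min_eq_left, min_eq_right, hxy, hzw] at h1 h2
      · exact Or.inl ⟨hi h2, hi h1⟩
      · exact Or.inr ⟨hi h2, hi h1⟩
      · exact Or.inr ⟨hi h1, hi h2⟩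
      · exact Or.inl ⟨hi h1, hi h2⟩

lemma edgeKey_map {W : Type*} (π : V ≃ W) (a : W → I) (f : Sym2 V) :
    edgeKey a (edgeEquiv π f) = edgeKey (a ∘ π) f := by
  induction f using Sym2.ind with
  | _ x y => rfl

/-- Rank of `w` among the neighbours of `v`. -/
noncomputable def rank (G : SimpleGraph V) (a : V → I) (v w : V) : ℕ :=
  Set.ncard {z | G.Adj v z ∧ (a z : ℝ) < a w}

lemma rank_lt {G : SimpleGraph V} {a : V → I} {v w w' : V} (hf : (G.neighborSet v).Finite)
    (hw : G.Adj v w) (h : (a w : ℝ) < a w') : rank G a v w < rank G a v w' := by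
  refine Set.ncard_lt_ncard ⟨fun z hz => ⟨hz.1, hz.2.trans h⟩, fun hsub => ?_⟩
    (hf.subset fun z hz => hz.1)
  exact lt_irrefl _ (hsub ⟨hw, h⟩).2

/-- The index of the noise label that the owner `x` gives to the edge `xy` in round `k`. -/
noncomputable def slot (G : SimpleGraph V) (a : V → I) (x y : V) (k : ℕ) : V × ℕ :=
  (x, 2 * Nat.pair (rank G a x y) k)

open scoped Classical in
/-- The noise of the edges. -/
noncomputable def noiseOf (G : SimpleGraph V) (a : V → I) (b : V × ℕ → I) (p : Sym2 V × ℕ) : I :=
  Sym2.lift ⟨fun x y => if (a x : ℝ) < a y then b (slot G a x y p.2)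
      else if (a y : ℝ) < a x then b (slot G a y x p.2) else 0, fun x y => by
        rcases lt_trichotomy (a x : ℝ) (a y) with h | h | h
        · simp [h, h.not_gt]
        · simp [h]
        · simp [h, h.not_gt]⟩ p.1

/-- For fixed injective ordering labels, the edge noise is a selection of distinct labels. -/
lemma exists_reindex [Countable V] {G : SimpleGraph V} (hlf : ∀ v, (G.neighborSet v).Finite)
    {a : V → I} (ha : Function.Injective a) :
    ∃ j : Sym2 V × ℕ → V × ℕ, Function.Injective j ∧
      ∀ b p, p.1 ∈ G.edgeSet → noiseOf G a b p = b (j p) := by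
  classical
  have : Encodable (Sym2 V) := Encodable.ofCountable _
  have hown : ∀ f : Sym2 V, f ∈ G.edgeSet → ∃ x y, f = s(x, y) ∧ (a x : ℝ) < a y := by
    intro f hf
    induction f using Sym2.ind with
    | _ x y =>
      rcases lt_trichotomy (a x : ℝ) (a y) with h | h | h
      · exact ⟨x, y, rfl, h⟩
      · exact absurd (ha (Subtype.ext h)) (G.ne_of_adj hf)
      · exact ⟨y, x, Sym2.eq_swap, h⟩
  choose ox oy hf1 hf2 using hown
  let j : Sym2 V × ℕ → V × ℕ := fun p =>
    if h : p.1 ∈ G.edgeSet then slot G a (ox p.1 h) (oy p.1 h) p.2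
    else (p.1.out.1, 2 * Nat.pair (Encodable.encode p.1) p.2 + 1)
  refine ⟨j, ?_, ?_⟩
  · rintro ⟨f, k⟩ ⟨g, l⟩ hjj
    simp only [j] at hjj
    split_ifs at hjj with h1 h2 h2
    · simp only [slot, Prod.mk.injEq] at hjj
      obtain ⟨hx, hk⟩ := hjj
      rw [mul_right_inj' (two_ne_zero), Nat.pair_eq_pair] at hk
      obtain ⟨hr, rfl⟩ := hk
      have e1 := hf1 f h1
      have e2 := hf1 g h2
      have adj1 : G.Adj (ox f h1) (oy f h1) := by rw [← SimpleGraph.mem_edgeSet, ← e1]; exact h1
      have adj2 : G.Adj (ox g h2) (oy g h2) := by rw [← SimpleGraph.mem_edgeSet, ← e2]; exact h2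
      have hy : oy f h1 = oy g h2 := by
        rw [← hx] at adj2 hr
        rcases lt_trichotomy (a (oy f h1) : ℝ) (a (oy g h2)) with h | h | h
        · exact absurd hr (rank_lt (hlf _) adj1 h).ne
        · exact ha (Subtype.ext h)
        · exact absurd hr (rank_lt (hlf _) adj2 h).ne'
      rw [e1, e2, hx, hy]
    · simp only [slot, Prod.mk.injEq] at hjj; omega
    · simp only [slot, Prod.mk.injEq] at hjj; omega
    · simp only [Prod.mk.injEq] at hjj
      have := Nat.pair_eq_pair.mp (mul_left_cancel₀ two_ne_zero (Nat.succ_injective hjj.2))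
      rw [Encodable.encode_injective this.1, this.2]
  · rintro b ⟨f, k⟩ hf
    simp only [j, dif_pos hf]
    conv_lhs => rw [noiseOf, show (f, k).1 = s(ox f hf, oy f hf) from hf1 f hf]
    rw [Sym2.lift_mk]
    exact if_pos (hf2 f hf)

/-- Selecting distinct coordinates of a product measure gives a product measure. -/
lemma map_comp_injective {ι κ : Type*} [DecidableEq κ] {j : ι → κ} (hj : Function.Injective j) :
    (unifPi κ).map (fun b i => b (j i)) = unifPi ι := by
  refine Measure.eq_infinitePi _ fun s t ht => ?_
  rw [Measure.map_apply (by fun_prop) (.pi s.countable_toSet fun i _ => ht i)]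
  have hpre : (fun (b : κ → I) i => b (j i)) ⁻¹' (Set.pi ↑s t) =
      Set.pi ↑(s.image j) (Function.extend j t fun _ => Set.univ) := by
    ext b
    simp [hj.extend_apply]
  rw [hpre, unifPi, Measure.infinitePi_pi, Finset.prod_image fun x _ y _ h => hj h]
  · exact Finset.prod_congr rfl fun i _ => by rw [hj.extend_apply]
  · intro i hi
    obtain ⟨x, -, rfl⟩ := Finset.mem_image.mp hi
    rw [hj.extend_apply]
    exact ht x

end Vale.Agent.P143
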