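import Vale.Agent.P143.Marginal
import Vale.Agent.P143.Channel
import Mathlib.Analysis.SpecificLimits.Basic

/-!
# The infinite-volume sampler

Each round every edge receives one channel observation. The predictive marginal of an edge uses
the observations of the `lt`-smaller edges of the same round; this is a contraction, so the round
has a unique solution in every, possibly infinite, graph.
-/

namespace Vale.Agent.P143

open SimpleGraph Finset Filter Topology unitInterval

variable {V : Type*} [DecidableEq V]

open scoped Classical in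
/-- Tilts seen by edge `e` within a round. -/
noncomputable def bump (lt : Sym2 V → Sym2 V → Prop) (y d : Sym2 V → ℝ) (e : Sym2 V) :
    Sym2 V → ℝ :=
  fun f => y f + if lt f e then d f else 0

/-- One Picard step for the increments of a round. -/
noncomputable def roundMap (G : SimpleGraph V) (lt : Sym2 V → Sym2 V → Prop) (u : Sym2 V → I)
    (y d : Sym2 V → ℝ) : Sym2 V → ℝ :=
  fun e => inc (u e) (marg G (bump lt y d e) e)

/-- Picard iterates for a round. -/
noncomputable def roundIter (G : SimpleGraph V) (lt : Sym2 V → Sym2 V → Prop) (u : Sym2 V → I)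
    (y : Sym2 V → ℝ) : ℕ → Sym2 V → ℝ
  | 0 => fun _ => 0
  | j + 1 => roundMap G lt u y (roundIter G lt u y j)

/-- The increments of a round. -/
noncomputable def roundFix (G : SimpleGraph V) (lt : Sym2 V → Sym2 V → Prop) (u : Sym2 V → I)
    (y : Sym2 V → ℝ) : Sym2 V → ℝ :=
  fun e => limsup (fun j => roundIter G lt u y j e) atTop

/-- The tilts after `k` rounds. -/
noncomputable def state (G : SimpleGraph V) (lt : Sym2 V → Sym2 V → Prop) (u : Sym2 V × ℕ → I) :
    ℕ → Sym2 V → ℝ
  | 0 => fun _ => 0
  | k + 1 => fun e =>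
      state G lt u k e + roundFix G lt (fun f => u (f, k)) (state G lt u k) e

variable {G : SimpleGraph V} {lt : Sym2 V → Sym2 V → Prop} {u : Sym2 V → I} {y : Sym2 V → ℝ}

lemma marg_mem (G : SimpleGraph V) (y : Sym2 V → ℝ) (e : Sym2 V) :
    marg G y e ∈ Set.Icc (0 : ℝ) 1 :=
  ⟨marg_nonneg G y e, marg_le_one G y e⟩

lemma roundMap_abs (d : Sym2 V → ℝ) (e : Sym2 V) : |roundMap G lt u y d e| < 1 :=
  inc_abs_lt (u e).2 (marg_mem _ _ _)

lemma roundIter_abs (j : ℕ) (e : Sym2 V) : |roundIter G lt u y j e| < 1 := by
  cases j with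
  | zero => simp [roundIter]
  | succ j => exact roundMap_abs _ _

lemma roundMap_lip {d d' : Sym2 V → ℝ} {ε : ℝ} (hε : 0 ≤ ε)
    (h : ∀ f ∈ G.edgeSet, |d f - d' f| ≤ ε) (e : Sym2 V) :
    |roundMap G lt u y d e - roundMap G lt u y d' e| ≤ 4 / 9 * ε := by
  classical
  refine (inc_lip (u e).2 (marg_mem _ _ _) (marg_mem _ _ _)).trans ?_
  have := marg_lip G hε (w := bump lt y d e) (w' := bump lt y d' e) (fun f hf => by
    simp only [bump]
    split_ifs
    · simpa using h f hf
    · simpa using hε) e
  linarith

lemma roundIter_step (j : ℕ) (e : Sym2 V) :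
    |roundIter G lt u y j e - roundIter G lt u y (j + 1) e| ≤ 1 * (4 / 9) ^ j := by
  induction j generalizing e with
  | zero => simpa [roundIter] using (roundMap_abs (G := G) (lt := lt) (u := u) (y := y) _ e).le
  | succ j ih =>
    refine (roundMap_lip (by positivity) (fun f _ => ih f) e).trans ?_
    rw [pow_succ]
    linarith [show (0 : ℝ) ≤ (4 / 9) ^ j by positivity]

lemma roundFix_tendsto (e : Sym2 V) :
    Tendsto (fun j => roundIter G lt u y j e) atTop (𝓝 (roundFix G lt u y e)) := by
  have h : CauchySeq (fun j => roundIter G lt u y j e) :=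
    cauchySeq_of_le_geometric (4 / 9) 1 (by norm_num) (fun j => by
      rw [Real.dist_eq]; exact roundIter_step j e)
  obtain ⟨a, ha⟩ := cauchySeq_tendsto_of_complete h
  rwa [roundFix, ha.limsup_eq]

lemma roundIter_near (j : ℕ) (e : Sym2 V) :
    |roundIter G lt u y j e - roundFix G lt u y e| ≤ 2 * (4 / 9) ^ j := by
  have := dist_le_of_le_geometric_of_tendsto (4 / 9) 1 (by norm_num) (fun j => by
      rw [Real.dist_eq]; exact roundIter_step j e) (roundFix_tendsto (G := G) (lt := lt) (u := u)
        (y := y) e) j
  rw [Real.dist_eq] at this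
  refine this.trans ?_
  have h : (0 : ℝ) ≤ (4 / 9) ^ j := by positivity
  rw [one_mul, div_le_iff₀ (by norm_num)]
  linarith

lemma roundFix_abs (e : Sym2 V) : |roundFix G lt u y e| ≤ 1 :=
  le_of_tendsto (roundFix_tendsto (G := G) (lt := lt) (u := u) (y := y) e).abs
    (Eventually.of_forall fun j => (roundIter_abs j e).le)

lemma tendsto_geom : Tendsto (fun j : ℕ => 2 * (4 / 9 : ℝ) ^ j) atTop (𝓝 0) := by
  simpa using (tendsto_pow_atTop_nhds_zero_of_lt_one (by norm_num) (by norm_num)).const_mul (2 : ℝ)

lemma roundFix_eq (e : Sym2 V) :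
    roundMap G lt u y (roundFix G lt u y) e = roundFix G lt u y e := by
  refine tendsto_nhds_unique ?_
    ((roundFix_tendsto (G := G) (lt := lt) (u := u) (y := y) e).comp (tendsto_add_atTop_nat 1))
  rw [tendsto_iff_dist_tendsto_zero]
  refine squeeze_zero (fun _ => dist_nonneg) (fun j => ?_) tendsto_geom
  rw [Real.dist_eq]
  refine (roundMap_lip (by positivity) (fun f _ => roundIter_near j f) e).trans ?_
  linarith [show (0 : ℝ) ≤ (4 / 9) ^ j by positivity]

lemma roundFix_abs_lt (e : Sym2 V) : |roundFix G lt u y e| < 1 := by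
  rw [← roundFix_eq]
  exact roundMap_abs _ _

/-- Uniqueness of the increments on the edges of `G`. -/
lemma roundFix_unique {d : Sym2 V → ℝ} (hd : ∀ f ∈ G.edgeSet, roundMap G lt u y d f = d f)
    {e : Sym2 V} (he : e ∈ G.edgeSet) : d e = roundFix G lt u y e := by
  have key : ∀ j : ℕ, ∀ f ∈ G.edgeSet, |d f - roundFix G lt u y f| ≤ 2 * (4 / 9) ^ j := by
    intro j
    induction j with
    | zero =>
      intro f hf
      rw [← hd f hf, pow_zero, mul_one]
      have h1 := roundMap_abs (G := G) (lt := lt) (u := u) (y := y) d f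
      have h2 := roundFix_abs (G := G) (lt := lt) (u := u) (y := y) f
      rw [abs_le] at h2 ⊢
      rw [abs_lt] at h1
      constructor <;> linarith
    | succ j ih =>
      intro f hf
      rw [← hd f hf, ← roundFix_eq f]
      refine (roundMap_lip (by positivity) ih f).trans ?_
      rw [pow_succ]
      linarith
  have h0 : |d e - roundFix G lt u y e| ≤ 0 :=
    ge_of_tendsto' tendsto_geom fun j => key j e he
  linarith [abs_nonpos_iff.mp h0]

lemma state_abs {u : Sym2 V × ℕ → I} (k : ℕ) (e : Sym2 V) : |state G lt u k e| ≤ k := by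
  induction k with
  | zero => simp [state]
  | succ k ih =>
    refine (abs_add_le _ _).trans ?_
    push_cast
    linarith [roundFix_abs (G := G) (lt := lt) (u := fun f => u (f, k)) (y := state G lt u k) e]

lemma state_step {u : Sym2 V × ℕ → I} (k : ℕ) (e : Sym2 V) :
    |state G lt u (k + 1) e - state G lt u k e| < 1 := by
  simpa [state] using
    roundFix_abs_lt (G := G) (lt := lt) (u := fun f => u (f, k)) (y := state G lt u k) e

omit [DecidableEq V] in
lemma gr_edgeSet {H : Finset (Sym2 V)} (hH : ∀ f ∈ H, ¬ f.IsDiag) :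
    (gr H).edgeSet = ↑H := by
  ext f
  rw [gr, edgeSet_fromEdgeSet]
  exact ⟨fun h => h.1, fun h => ⟨h, fun hd => hH f h (by simpa using hd)⟩⟩

/-- Finite-volume sampler converges to the infinite-volume sampler. -/
theorem state_tendsto {H : ℕ → Finset (Sym2 V)} (hsub : ∀ n, ↑(H n) ⊆ G.edgeSet)
    (hex : ∀ f ∈ G.edgeSet, ∀ᶠ n in atTop, f ∈ H n) (u : Sym2 V × ℕ → I) (k : ℕ) :
    ∀ e ∈ G.edgeSet,
      Tendsto (fun n => state (gr (H n)) lt u k e) atTop (𝓝 (state G lt u k e)) := by
  classical
  induction k with
  | zero => intro e _; exact tendsto_const_nhds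
  | succ k ih =>
    intro e he
    refine (ih e he).add ?_
    set uk : Sym2 V → I := fun f => u (f, k)
    set yn : ℕ → Sym2 V → ℝ := fun n => state (gr (H n)) lt u k with hyn
    set yy : Sym2 V → ℝ := state G lt u k with hyy
    have hj : ∀ j, ∀ f ∈ G.edgeSet, Tendsto (fun n => roundIter (gr (H n)) lt uk (yn n) j f) atTop
        (𝓝 (roundIter G lt uk yy j f)) := by
      intro j
      induction j with
      | zero => intro f _; exact tendsto_const_nhds
      | succ j ihj =>
        intro f hf
        have hp : Tendsto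
            (fun n => prob (H n) (bump lt (yn n) (roundIter (gr (H n)) lt uk (yn n) j) f) f) atTop
            (𝓝 (marg G (bump lt yy (roundIter G lt uk yy j) f) f)) := by
          have hbound : ∀ (G' : SimpleGraph V) (g : Sym2 V),
              |bump lt (state G' lt u k) (roundIter G' lt uk (state G' lt u k) j) f g| ≤
                (k : ℝ) + 1 := by
            intro G' g
            simp only [bump]
            refine (abs_add_le _ _).trans (add_le_add (state_abs k g) ?_)
            split_ifs
            · exact (roundIter_abs j g).le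
            · simp
          refine prob_tendsto_marg hsub hex (fun g hg => ?_) (fun n g _ => hbound (gr (H n)) g)
            (fun g _ => hbound G g) hf
          simp only [bump]
          refine (ih g hg).add ?_
          split_ifs
          · exact ihj g hg
          · exact tendsto_const_nhds
        rw [tendsto_iff_dist_tendsto_zero] at hp ⊢
        refine squeeze_zero' (Eventually.of_forall fun _ => dist_nonneg) ?_
          (by simpa using hp.const_mul (2 / 9 : ℝ))
        filter_upwards [hex f hf] with n hn
        rw [Real.dist_eq, Real.dist_eq]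
        refine (inc_lip (uk f).2 (marg_mem _ _ _) (marg_mem _ _ _)).trans ?_
        rw [marg_finite (not_diag_of_subset (hsub n)) _ hn]
    rw [Metric.tendsto_atTop]
    intro ε hε
    obtain ⟨j, hjε⟩ := (tendsto_geom.eventually (eventually_lt_nhds (show (0 : ℝ) < ε / 3 by
      positivity))).exists
    obtain ⟨N, hN⟩ := Metric.tendsto_atTop.mp (hj j e he) (ε / 3) (by positivity)
    refine ⟨N, fun n hn => ?_⟩
    have h1 := roundIter_near (G := gr (H n)) (lt := lt) (u := uk) (y := yn n) j e
    have h2 := roundIter_near (G := G) (lt := lt) (u := uk) (y := yy) j e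
    have h3 := hN n hn
    rw [Real.dist_eq, abs_lt] at h3 ⊢
    rw [abs_le] at h1 h2
    constructor <;> linarith

/-! ### Invariance -/

/-- The bijection of edges induced by a bijection of vertices. -/
def edgeEquiv {W : Type*} (π : V ≃ W) : Sym2 V ≃ Sym2 W where
  toFun := Sym2.map π
  invFun := Sym2.map π.symm
  left_inv f := by simp [Sym2.map_map]
  right_inv f := by simp [Sym2.map_map]

variable {W : Type*} [DecidableEq W]

omit [DecidableEq V] [DecidableEq W] in
lemma gr_map_iso (π : V ≃ W) (T : Finset (Sym2 V)) :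
    ∀ a b, (gr (T.map (edgeEquiv π).toEmbedding)).Adj (π a) (π b) ↔ (gr T).Adj a b := by
  intro a b
  have : s(π a, π b) = edgeEquiv π s(a, b) := rfl
  rw [gr_adj, gr_adj, this, Finset.mem_map_equiv, Equiv.symm_apply_apply]
  simp

omit [DecidableEq V] [DecidableEq W] in
lemma isForest_map (π : V ≃ W) {T H : Finset (Sym2 V)} :
    IsForest (T.map (edgeEquiv π).toEmbedding) (H.map (edgeEquiv π).toEmbedding) ↔
      IsForest T H := by
  let φ : gr T ≃g gr (T.map (edgeEquiv π).toEmbedding) :=
    ⟨π, fun {a b} => gr_map_iso π T a b⟩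
  have hr : ∀ a b, (gr (T.map (edgeEquiv π).toEmbedding)).Reachable (π a) (π b) ↔
      (gr T).Reachable a b := fun a b => Iso.reachable_iff (φ := φ)
  unfold IsForest
  rw [Finset.map_subset_map, ← Iso.isAcyclic_iff φ]
  refine and_congr_right fun _ => and_congr_right fun _ => ?_
  constructor
  · intro h a b hab
    exact (hr a b).mp (h _ _ (Finset.mem_map_of_mem _ hab))
  · intro h a b hab
    obtain ⟨a, rfl⟩ := π.surjective a
    obtain ⟨b, rfl⟩ := π.surjective b
    rw [Finset.mem_map_equiv] at hab
    refine (hr a b).mpr (h a b ?_)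
    simpa [edgeEquiv] using hab

omit [DecidableEq V] [DecidableEq W] in
lemma forests_map (π : V ≃ W) (H : Finset (Sym2 V)) :
    forests (H.map (edgeEquiv π).toEmbedding) =
      (forests H).map (edgeEquiv π).finsetCongr.toEmbedding := by
  ext T
  obtain ⟨T, rfl⟩ := (edgeEquiv π).finsetCongr.surjective T
  rw [mem_forests, Finset.mem_map_equiv, Equiv.symm_apply_apply, mem_forests]
  exact isForest_map π

lemma prob_map (π : V ≃ W) (H : Finset (Sym2 V)) (y : Sym2 W → ℝ) (e : Sym2 V) :
    prob (H.map (edgeEquiv π).toEmbedding) y (edgeEquiv π e) =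
      prob H (fun f => y (edgeEquiv π f)) e := by
  have hwt : ∀ T : Finset (Sym2 V), wt y ((edgeEquiv π).finsetCongr T) =
      wt (fun f => y (edgeEquiv π f)) T := fun T => by simp [wt, Equiv.finsetCongr_apply]
  unfold prob Zf
  rw [forests_map, Finset.sum_filter, Finset.sum_filter, Finset.sum_map, Finset.sum_map]
  congr 1
  · refine Finset.sum_congr rfl fun T _ => ?_
    simp only [Equiv.coe_toEmbedding, hwt]
    simp [Equiv.finsetCongr_apply]
  · exact Finset.sum_congr rfl fun T _ => hwt T

lemma marg_map (π : V ≃ W) {G : SimpleGraph V} {G' : SimpleGraph W}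
    (hG : ∀ f, edgeEquiv π f ∈ G'.edgeSet ↔ f ∈ G.edgeSet) (y : Sym2 W → ℝ) (e : Sym2 V) :
    marg G' y (edgeEquiv π e) = marg G (fun f => y (edgeEquiv π f)) e := by
  classical
  unfold marg
  refine (Equiv.iInf_congr (edgeEquiv π).finsetCongr fun H => ?_).symm
  have h1 : (↑((edgeEquiv π).finsetCongr H) ⊆ G'.edgeSet ∧
      edgeEquiv π e ∈ (edgeEquiv π).finsetCongr H) ↔ (↑H ⊆ G.edgeSet ∧ e ∈ H) := by
    simp only [Equiv.finsetCongr_apply, Finset.coe_map, Set.image_subset_iff]
    refine and_congr ?_ (by simp)
    exact forall₂_congr fun f _ => hG f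
  exact if_congr h1 (prob_map π H y e) rfl

lemma state_map (π : V ≃ W) {G : SimpleGraph V} {G' : SimpleGraph W}
    (hG : ∀ f, edgeEquiv π f ∈ G'.edgeSet ↔ f ∈ G.edgeSet)
    {lt : Sym2 V → Sym2 V → Prop} {lt' : Sym2 W → Sym2 W → Prop}
    (hlt : ∀ f g, lt' (edgeEquiv π f) (edgeEquiv π g) ↔ lt f g)
    {u : Sym2 V × ℕ → I} {u' : Sym2 W × ℕ → I} (hu : ∀ f k, u' (edgeEquiv π f, k) = u (f, k))
    (k : ℕ) (e : Sym2 V) : state G' lt' u' k (edgeEquiv π e) = state G lt u k e := by
  classical
  induction k generalizing e with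
  | zero => rfl
  | succ k ih =>
    simp only [state, roundFix, ih e]
    congr 2
    funext j
    induction j generalizing e with
    | zero => rfl
    | succ j ihj =>
      simp only [roundIter, roundMap, hu, marg_map π hG]
      congr 2
      funext f
      simp only [bump, ih f, ihj f, hlt]

/-! ### Measurability -/

section meas

variable [Countable V] {Ω : Type*} [MeasurableSpace Ω]

omit [DecidableEq V] [Countable V] in
lemma measurableSet_mem_edgeSet {A : Ω → V → V → Prop}
    (hA : ∀ a b, Measurable fun ω => A ω a b) (f : Sym2 V) :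
    MeasurableSet {ω | f ∈ (SimpleGraph.fromRel (A ω)).edgeSet} := by
  induction f using Sym2.ind with
  | _ a b =>
    simp only [SimpleGraph.mem_edgeSet, SimpleGraph.fromRel_adj]
    exact (MeasurableSet.const _).inter
      ((measurableSet_setOfPred.mpr (hA a b)).union (measurableSet_setOfPred.mpr (hA b a)))

omit [Countable V] in
lemma measurable_prob (H : Finset (Sym2 V)) {Y : Ω → Sym2 V → ℝ}
    (hY : ∀ f, Measurable fun ω => Y ω f) (e : Sym2 V) :
    Measurable fun ω => prob H (Y ω) e := by
  have hwt : ∀ T, Measurable fun ω => wt (Y ω) T := fun T =>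
    Real.measurable_exp.comp (Finset.measurable_sum T fun f _ => hY f)
  exact (Finset.measurable_sum _ fun T _ => hwt T).div
    (Finset.measurable_sum _ fun T _ => hwt T)

lemma measurable_marg {A : Ω → V → V → Prop} (hA : ∀ a b, Measurable fun ω => A ω a b)
    {Y : Ω → Sym2 V → ℝ} (hY : ∀ f, Measurable fun ω => Y ω f) (e : Sym2 V) :
    Measurable fun ω => marg (SimpleGraph.fromRel (A ω)) (Y ω) e := by
  classical
  refine Measurable.iInf fun H => ?_
  refine Measurable.ite ?_ (measurable_prob H hY e) measurable_const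
  have : {ω | ↑H ⊆ (SimpleGraph.fromRel (A ω)).edgeSet ∧ e ∈ H} =
      (⋂ f ∈ H, {ω | f ∈ (SimpleGraph.fromRel (A ω)).edgeSet}) ∩ {_ω | e ∈ H} := by
    ext ω
    simp [Set.subset_def]
  rw [this]
  exact (Finset.measurableSet_biInter H fun f _ => measurableSet_mem_edgeSet hA f).inter
    (MeasurableSet.const _)

lemma measurable_state {A : Ω → V → V → Prop} (hA : ∀ a b, Measurable fun ω => A ω a b)
    {R : Ω → Sym2 V → Sym2 V → Prop} (hR : ∀ f g, Measurable fun ω => R ω f g)
    {U : Ω → Sym2 V × ℕ → I} (hU : ∀ p, Measurable fun ω => U ω p) (k : ℕ) (e : Sym2 V) :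
    Measurable fun ω => state (SimpleGraph.fromRel (A ω)) (R ω) (U ω) k e := by
  classical
  induction k generalizing e with
  | zero => exact measurable_const
  | succ k ih =>
    refine (ih e).add (Measurable.limsup fun j => ?_)
    induction j generalizing e with
    | zero => exact measurable_const
    | succ j ihj =>
      simp only [roundIter, roundMap]
      refine Measurable.comp (g := Function.uncurry inc)
        (f := fun ω => ((U ω (e, k) : ℝ), marg (SimpleGraph.fromRel (A ω))
          (bump (R ω) (state (SimpleGraph.fromRel (A ω)) (R ω) (U ω) k)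
            (roundIter (SimpleGraph.fromRel (A ω)) (R ω) (fun f => U ω (f, k))
              (state (SimpleGraph.fromRel (A ω)) (R ω) (U ω) k) j) e) e))
        measurable_inc (Measurable.prodMk (measurable_subtype_coe.comp (hU (e, k))) ?_)
      refine measurable_marg hA (Y := fun ω => bump (R ω) (state (SimpleGraph.fromRel (A ω)) (R ω) (U ω) k)
            (roundIter (SimpleGraph.fromRel (A ω)) (R ω) (fun f => U ω (f, k))
              (state (SimpleGraph.fromRel (A ω)) (R ω) (U ω) k) j) e) (fun f => ?_) e
      simp only [bump]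
      exact (ih f).add (Measurable.ite (measurableSet_setOfPred.mpr (hR f e)) (ihj f) measurable_const)

end meas

end Vale.Agent.P143
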